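import Vale.Agent.P344.Tensor

/-!
Frame operators attached to `ZMod 4`-valued phases on an elementary abelian 2-group.
-/

namespace Vale.Agent.P344

open Set Finset Matrix Kronecker Complex

/-- The sign character of `ZMod 2`. -/
def sg (a : ZMod 2) : ℂ := if a = 0 then 1 else -1

/-- The character `z ↦ i ^ z` of `ZMod 4`. -/
def ph (z : ZMod 4) : ℂ := I ^ z.val

/-- The `0/1` lift. -/
def lift (a : ZMod 2) : ZMod 4 := (a.val : ZMod 4)

/-- Reduction modulo two. -/
def red : ZMod 4 →+* ZMod 2 := ZMod.castHom (by norm_num) (ZMod 2)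

/-- The square root of the transposition matrix. -/
noncomputable def C2 : Matrix (ZMod 2) (ZMod 2) ℂ :=
  Matrix.of fun a b => if a = b then (1 + I) / 2 else (1 - I) / 2

/-- The Hadamard matrix of order two. -/
def H2 : Matrix (ZMod 2) (ZMod 2) ℂ := Matrix.of fun a b => sg (a * b)

theorem zmod2_cases (a : ZMod 2) : a = 0 ∨ a = 1 := by revert a; decide

theorem zmod4_cases (a : ZMod 4) : a = 0 ∨ a = 1 ∨ a = 2 ∨ a = 3 := by revert a; decide

theorem sum_zmod2 (f : ZMod 2 → ℂ) : ∑ a, f a = f 0 + f 1 := Fin.sum_univ_two f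

@[simp] theorem sg_zero : sg 0 = 1 := by simp [sg]

@[simp] theorem sg_one : sg 1 = -1 := by simp [sg]

theorem sg_add (a b : ZMod 2) : sg (a + b) = sg a * sg b := by
  have h11 : (1 + 1 : ZMod 2) = 0 := by decide
  rcases zmod2_cases a with rfl | rfl <;> rcases zmod2_cases b with rfl | rfl <;> simp [h11]

theorem sg_sum {J : Type} (s : Finset J) (f : J → ZMod 2) :
    sg (∑ j ∈ s, f j) = ∏ j ∈ s, sg (f j) := by
  classical
  induction s using Finset.induction_on with
  | empty => simp
  | insert a s ha ih => rw [Finset.sum_insert ha, Finset.prod_insert ha, sg_add, ih]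

@[simp] theorem ph_zero : ph 0 = 1 := by simp [ph]

theorem ph_one : ph 1 = I := by
  have : (1 : ZMod 4).val = 1 := rfl
  simp [ph, this]

theorem ph_two : ph 2 = -1 := by
  have : (2 : ZMod 4).val = 2 := rfl
  simp [ph, this]

theorem ph_add (a b : ZMod 4) : ph (a + b) = ph a * ph b := by
  unfold ph
  rw [ZMod.val_add, ← pow_add]
  conv_rhs => rw [← Nat.mod_add_div (a.val + b.val) 4, pow_add, pow_mul, I_pow_four, one_pow,
    mul_one]

theorem ph_sum {J : Type} (s : Finset J) (f : J → ZMod 4) :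
    ph (∑ j ∈ s, f j) = ∏ j ∈ s, ph (f j) := by
  classical
  induction s using Finset.induction_on with
  | empty => simp
  | insert a s ha ih => rw [Finset.sum_insert ha, Finset.prod_insert ha, ph_add, ih]

theorem sq_cases (z : ZMod 4) : (red z = 0 ∧ z ^ 2 = 0) ∨ (red z = 1 ∧ z ^ 2 = 1) := by
  revert z; decide

theorem ph_sq (z : ZMod 4) : ph (z ^ 2) = (1 + I) / 2 + (1 - I) / 2 * sg (red z) := by
  rcases sq_cases z with ⟨h1, h2⟩ | ⟨h1, h2⟩
  · rw [h1, h2]; simp; ring
  · rw [h1, h2, ph_one]; simp; ring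

theorem ph_two_sq (z : ZMod 4) : ph (2 * z ^ 2) = sg (red z) := by
  rcases sq_cases z with ⟨h1, h2⟩ | ⟨h1, h2⟩
  · rw [h1, h2]; simp
  · rw [h1, h2, mul_one, ph_two]; simp

theorem red_lift (a : ZMod 2) : red (lift a) = a := by revert a; decide

theorem H2_mul_H2 : H2 * H2 = (2 : ℂ) • (1 : Matrix (ZMod 2) (ZMod 2) ℂ) := by
  ext a b
  rw [Matrix.mul_apply, sum_zmod2]
  rcases zmod2_cases a with rfl | rfl <;> rcases zmod2_cases b with rfl | rfl <;>
    simp [H2] <;> norm_num

theorem H2_mul_C2 : H2 * C2 = Matrix.diagonal (fun a => ph (lift a ^ 2)) * H2 := by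
  ext a b
  rw [Matrix.mul_apply, sum_zmod2, Matrix.diagonal_mul, ph_sq, red_lift]
  rcases zmod2_cases a with rfl | rfl <;> rcases zmod2_cases b with rfl | rfl <;>
    simp [H2, C2] <;> ring

section Lam
variable {ι : Type} [Fintype ι] [DecidableEq ι]

/-- The full Walsh-Hadamard matrix. -/
def Hd (ι : Type) [Fintype ι] : Matrix (ι → ZMod 2) (ι → ZMod 2) ℂ := tprod fun _ : ι => H2

omit [DecidableEq ι] in
theorem Hd_apply (ξ x : ι → ZMod 2) : Hd ι ξ x = sg (∑ i, ξ i * x i) := by
  rw [sg_sum]; rfl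

omit [DecidableEq ι] in
theorem Hd_add (ξ x y : ι → ZMod 2) : Hd ι ξ (x + y) = Hd ι ξ x * Hd ι ξ y := by
  simp only [Hd_apply, ← sg_add, ← Finset.sum_add_distrib, Pi.add_apply, mul_add]

theorem Hd_mul_Hd : Hd ι * Hd ι = ((2 : ℂ) ^ Fintype.card ι) • 1 := by
  rw [Hd, tprod_mul, H2_mul_H2, ← tprod_one (J := ι) (α := fun _ => ZMod 2)]
  ext x y
  simp only [tprod_apply, Matrix.smul_apply, smul_eq_mul, Finset.prod_mul_distrib,
    Finset.prod_const, Finset.card_univ]

/-- The frame operator of a phase function. -/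
noncomputable def Lam (q : (ι → ZMod 4) → ZMod 4) : Matrix (ι → ZMod 2) (ι → ZMod 2) ℂ :=
  ((2 : ℂ) ^ Fintype.card ι)⁻¹ •
    (Hd ι * (Matrix.diagonal (fun ξ => ph (q fun i => lift (ξ i))) * Hd ι))

theorem Lam_eq {q : (ι → ZMod 4) → ZMod 4} {A : Matrix (ι → ZMod 2) (ι → ZMod 2) ℂ}
    (h : Hd ι * A = Matrix.diagonal (fun ξ => ph (q fun i => lift (ξ i))) * Hd ι) :
    Lam q = A := by
  rw [Lam, ← h, ← Matrix.mul_assoc, Hd_mul_Hd, Matrix.smul_mul, smul_smul, Matrix.one_mul,
    inv_mul_cancel₀ (pow_ne_zero _ two_ne_zero), one_smul]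

theorem Hd_mul_Lam (q : (ι → ZMod 4) → ZMod 4) :
    Hd ι * Lam q = Matrix.diagonal (fun ξ => ph (q fun i => lift (ξ i))) * Hd ι := by
  rw [Lam, Matrix.mul_smul, ← Matrix.mul_assoc, Hd_mul_Hd, Matrix.smul_mul, smul_smul,
    Matrix.one_mul, inv_mul_cancel₀ (pow_ne_zero _ two_ne_zero), one_smul]

theorem Lam_zero : Lam (0 : (ι → ZMod 4) → ZMod 4) = 1 := by
  apply Lam_eq
  simp

theorem Lam_add (q q' : (ι → ZMod 4) → ZMod 4) : Lam (q + q') = Lam q * Lam q' := by
  apply Lam_eq
  rw [← Matrix.mul_assoc, Hd_mul_Lam, Matrix.mul_assoc, Hd_mul_Lam, ← Matrix.mul_assoc,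
    Matrix.diagonal_mul_diagonal]
  simp only [Pi.add_apply, ph_add]

theorem Lam_norm : Lam (fun x : ι → ZMod 4 => ∑ i, x i ^ 2) = tprod fun _ : ι => C2 := by
  apply Lam_eq
  rw [Hd, tprod_mul, H2_mul_C2]
  ext ξ y
  simp only [tprod_apply, Matrix.diagonal_mul, ph_sum, Finset.prod_mul_distrib]

/-- The vector of an additive functional, modulo two. -/
def vec (f : (ι → ZMod 4) →+ ZMod 4) : ι → ZMod 2 := fun i => red (f (Pi.single i 1))

theorem red_apply (f : (ι → ZMod 4) →+ ZMod 4) (ξ : ι → ZMod 2) :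
    sg (red (f fun i => lift (ξ i))) = Hd ι ξ (vec f) := by
  rw [Hd_apply]
  congr 1
  have : (fun i => lift (ξ i)) = ∑ i, (ξ i).val • Pi.single i (1 : ZMod 4) := by
    funext j
    simp only [Finset.sum_apply, Pi.smul_apply, Pi.single_apply, smul_ite, smul_zero,
      Finset.sum_ite_eq, Finset.mem_univ, if_true]
    rw [lift, nsmul_eq_mul, mul_one]
  rw [this, map_sum, map_sum]
  refine Finset.sum_congr rfl fun i _ => ?_
  rw [map_nsmul, map_nsmul, nsmul_eq_mul, ZMod.natCast_zmod_val, vec]

theorem Lam_sq (f : (ι → ZMod 4) →+ ZMod 4) :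
    Lam (fun x => f x ^ 2) = Matrix.of fun x y =>
      (if x = y then (1 + I) / 2 else 0) + (if x = y + vec f then (1 - I) / 2 else 0) := by
  apply Lam_eq
  ext ξ y
  rw [Matrix.diagonal_mul, ph_sq, red_apply, Matrix.mul_apply]
  simp only [Matrix.of_apply, mul_add, Finset.sum_add_distrib, mul_ite, mul_zero,
    Finset.sum_ite_eq', Finset.mem_univ, if_true, Hd_add]
  ring

theorem Lam_two_sq (f : (ι → ZMod 4) →+ ZMod 4) :
    Lam (fun x => 2 * f x ^ 2) = Matrix.of fun x y => if x = y + vec f then 1 else 0 := by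
  apply Lam_eq
  ext ξ y
  rw [Matrix.diagonal_mul, ph_two_sq, red_apply, Matrix.mul_apply]
  simp only [Matrix.of_apply, mul_ite, mul_zero, mul_one,
    Finset.sum_ite_eq', Finset.mem_univ, if_true, Hd_add]
  ring

end Lam

/-- The `k`-th tensor power. -/
def tpow {α β : Type} (k : ℕ) (A : Matrix α β ℂ) : Matrix (Fin k → α) (Fin k → β) ℂ :=
  tprod fun _ : Fin k => A

section tpowLam
variable {ι : Type} [Fintype ι] [DecidableEq ι]

theorem tpow_Lam_add (k : ℕ) (q q' : (ι → ZMod 4) → ZMod 4) :
    tpow k (Lam (q + q')) = tpow k (Lam q) * tpow k (Lam q') := by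
  rw [tpow, tpow, tpow, tprod_mul, Lam_add]

theorem tpow_Lam_zero (k : ℕ) : tpow k (Lam (0 : (ι → ZMod 4) → ZMod 4)) = 1 := by
  rw [tpow, Lam_zero, tprod_one]

theorem cost_tpow_two_sq (k : ℕ) (f : (ι → ZMod 4) →+ ZMod 4) :
    cost (tpow k (Lam fun x => 2 * f x ^ 2)) = 0 := by
  have : tpow k (Lam fun x => 2 * f x ^ 2) =
      (1 : Matrix (Fin k → ι → ZMod 2) (Fin k → ι → ZMod 2) ℂ).submatrix
        (fun x => x - fun _ => vec f) id := by
    ext x y
    rw [Lam_two_sq, tpow, tprod_apply]
    simp only [Matrix.of_apply, Matrix.submatrix_apply, Matrix.one_apply, id]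
    rw [prod_ite_eq_fun x (fun a => y a + vec f)]
    congr 1
    rw [sub_eq_iff_eq_add]
    rfl
  rw [this]
  refine Nat.eq_zero_of_le_zero ((cost_submatrix_le _ _ _ Function.injective_id).trans ?_)
  rw [cost_one]

theorem cost_tpow_sq {W : Type} [Fintype W] [DecidableEq W] (k q : ℕ)
    (hq : 2 ^ ((Fintype.card ι - 1) * k) ≤ q * Fintype.card W) (f : (ι → ZMod 4) →+ ZMod 4) :
    cost (tpow k (Lam fun x => f x ^ 2)) ≤ q * cost ((1 : Matrix W W ℂ) ⊗ₖ tpow k C2) := by
  by_cases hu : vec f = 0
  · have : Lam (fun x => f x ^ 2) = 1 := by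
      rw [Lam_sq, hu]
      ext x y
      by_cases h : x = y
      · subst h; simp; ring
      · simp [h]
    rw [this, tpow, tprod_one, cost_one]
    exact Nat.zero_le _
  obtain ⟨j, hj⟩ := Function.ne_iff.mp hu
  have hj1 : vec f j = 1 := (zmod2_cases _).resolve_left hj
  set u := vec f with hu_def
  let e : (ι → ZMod 2) → ({i // i ≠ j} → ZMod 2) := fun x i => x i - x j * u i
  have he : ∀ x y : ι → ZMod 2, e x = e y ↔ x = y + fun i => (x j - y j) * u i := by
    intro x y
    constructor
    · intro h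
      funext i
      by_cases hi : i = j
      · subst hi; simp [hj1]
      · have := congrFun h ⟨i, hi⟩
        simp only [e] at this
        simp only [Pi.add_apply]
        linear_combination this
    · intro h
      funext i
      have := congrFun h i
      simp only [Pi.add_apply] at this
      simp only [e]
      linear_combination this
  have h1 : ∀ x y, Lam (fun x => f x ^ 2) x y = (if e x = e y then 1 else 0) * C2 (x j) (y j) := by
    intro x y
    rw [Lam_sq]
    simp only [Matrix.of_apply, he, C2, ← hu_def]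
    by_cases hxy : x j = y j
    · have h2 : x ≠ y + u := fun h => by
        have := congrFun h j
        rw [Pi.add_apply, hj1, hxy] at this
        simp at this
      have h3 : (y + fun i => (x j - y j) * u i) = y := by
        funext i; simp [hxy]
      rw [h3, if_neg h2, if_pos hxy]
      by_cases h : x = y <;> simp [h]
    · have h2 : x ≠ y := fun h => hxy (by rw [h])
      have h4 : x j - y j = 1 := (zmod2_cases _).resolve_left (sub_ne_zero.mpr hxy)
      have h3 : (y + fun i => (x j - y j) * u i) = y + u := by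
        funext i; simp [h4]
      rw [h3, if_neg h2, if_neg hxy]
      by_cases h : x = y + u <;> simp [h]
  have h2 : tpow k (Lam fun x => f x ^ 2) =
      ((1 : Matrix (Fin k → {i // i ≠ j} → ZMod 2) (Fin k → {i // i ≠ j} → ZMod 2) ℂ) ⊗ₖ
        tpow k C2).submatrix (fun x => (fun a => e (x a), fun a => x a j))
          (fun x => (fun a => e (x a), fun a => x a j)) := by
    ext x y
    simp only [tpow, tprod_apply, h1, Finset.prod_mul_distrib, Matrix.submatrix_apply,
      Matrix.kroneckerMap_apply, Matrix.one_apply]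
    rw [prod_ite_eq_fun (fun a => e (x a)) (fun a => e (y a))]
  rw [h2]
  refine (cost_submatrix_le _ _ _ ?_).trans (cost_batch _ q ?_)
  · intro x y h
    simp only [Prod.mk.injEq] at h
    funext a
    have h3 := (he _ _).mp (congrFun h.1 a)
    have h4 : x a j = y a j := congrFun h.2 a
    rw [h3]
    funext i
    simp [h4]
  · refine le_trans (le_of_eq ?_) hq
    simp [Fintype.card_subtype_compl, ← pow_mul]

end tpowLam

/-- `Short r q`: modulo doubled squares, `q` is a sum of at most `r` squares of functionals. -/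
inductive Short {M : Type} [AddCommGroup M] : ℕ → (M → ZMod 4) → Prop
  | zero (r : ℕ) : Short r 0
  | sq (f : M →+ ZMod 4) {r : ℕ} {q : M → ZMod 4} : Short r q → Short (r + 1) (q + fun x => f x ^ 2)
  | dbl (f : M →+ ZMod 4) {r : ℕ} {q : M → ZMod 4} :
      Short r q → Short r (q + fun x => 2 * f x ^ 2)

section Short
variable {M M' : Type} [AddCommGroup M] [AddCommGroup M']

theorem Short.congr {r : ℕ} {q q' : M → ZMod 4} (h : Short r q) (hq : ∀ x, q' x = q x) :
    Short r q' := by
  rwa [show q' = q from funext hq]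

theorem Short.succ {r : ℕ} {q : M → ZMod 4} (h : Short r q) : Short (r + 1) q :=
  (h.sq 0).congr (by simp)

theorem Short.mono {r s : ℕ} {q : M → ZMod 4} (h : Short r q) (hrs : r ≤ s) : Short s q := by
  induction hrs with
  | refl => exact h
  | step _ ih => exact ih.succ

theorem Short.add {r s : ℕ} {q q' : M → ZMod 4} (h : Short r q) (h' : Short s q') :
    Short (r + s) (q + q') := by
  induction h' with
  | zero s => simpa using h.mono (Nat.le_add_right _ _)
  | sq f _ ih => exact (ih.sq f).congr (fun x => by simp [add_assoc])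
  | dbl f _ ih => exact (ih.dbl f).congr (fun x => by simp [add_assoc])

theorem Short.neg {r : ℕ} {q : M → ZMod 4} (h : Short r q) : Short r (-q) := by
  have h4 : (4 : ZMod 4) = 0 := by decide
  induction h with
  | zero s => simpa using Short.zero s
  | sq f _ ih =>
    refine ((ih.sq f).dbl f).congr (fun x => ?_)
    simp only [Pi.add_apply, Pi.neg_apply]
    linear_combination (-(f x ^ 2)) * h4
  | dbl f _ ih =>
    refine (ih.dbl f).congr (fun x => ?_)
    simp only [Pi.add_apply, Pi.neg_apply]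
    linear_combination (-(f x ^ 2)) * h4

theorem Short.one (f : M →+ ZMod 4) : Short 1 fun x => f x ^ 2 :=
  ((Short.zero 0).sq f).congr (by simp)

theorem Short.two (f : M →+ ZMod 4) : Short 0 fun x => 2 * f x ^ 2 :=
  ((Short.zero 0).dbl f).congr (by simp)

theorem Short.sum {J : Type} (s : Finset J) {r : ℕ} {q : J → M → ZMod 4}
    (h : ∀ j ∈ s, Short r (q j)) : Short (s.card * r) fun x => ∑ j ∈ s, q j x := by
  classical
  induction s using Finset.induction_on with
  | empty => exact (Short.zero _).congr (by simp)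
  | insert a s ha ih =>
    have := (h a (Finset.mem_insert_self _ _)).add
      (ih fun j hj => h j (Finset.mem_insert_of_mem hj))
    rw [Finset.card_insert_of_notMem ha]
    refine (this.mono (le_of_eq (by ring))).congr fun x => ?_
    simp [Finset.sum_insert ha]

theorem Short.comp {r : ℕ} {q : M → ZMod 4} (h : Short r q) (φ : M' →+ M) :
    Short r fun x => q (φ x) := by
  induction h with
  | zero s => exact Short.zero s
  | sq f _ ih => exact (ih.sq (f.comp φ)).congr (fun x => by simp)
  | dbl f _ ih => exact (ih.dbl (f.comp φ)).congr (fun x => by simp)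

end Short

theorem Short.cost_le {ι : Type} [Fintype ι] [DecidableEq ι] {k B : ℕ}
    (hB : ∀ f : (ι → ZMod 4) →+ ZMod 4, cost (tpow k (Lam fun x => f x ^ 2)) ≤ B)
    {r : ℕ} {q : (ι → ZMod 4) → ZMod 4} (h : Short r q) : cost (tpow k (Lam q)) ≤ r * B := by
  induction h with
  | zero s => rw [tpow_Lam_zero, cost_one]; exact Nat.zero_le _
  | sq f _ ih =>
    rw [tpow_Lam_add]
    refine (cost_mul_le _ _).trans ?_
    have := hB f
    nlinarith
  | dbl f _ ih =>
    rw [tpow_Lam_add]
    refine (cost_mul_le _ _).trans ?_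
    rw [cost_tpow_two_sq]
    exact ih

end Vale.Agent.P344
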