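import Vale.Agent.P344.Triples

/-!
The shear gadget and the network that beats routing.
-/

namespace Vale.Agent.P344

open Finset Matrix Kronecker

/-- Three-element subsets. -/
abbrev Tri (h : ℕ) : Type := {S : Finset (Fin h) // S.card = 3}

/-- Pairs of three-element subsets with even intersection. -/
abbrev Orth (h : ℕ) : Type :=
  {p : Tri h × Tri h // (p.1.1 ∩ p.2.1).card = 0 ∨ (p.1.1 ∩ p.2.1).card = 2}

variable {h : ℕ}

/-- The low rank part of the identity. -/
noncomputable def cM (S T : Tri h) : ℂ := (((S.1 ∩ T.1).card : ℂ) - 1) / 2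

/-- Coefficients of the central registers. -/
noncomputable def cmu (j : Fin h) (T : Tri h) : ℂ := ((if j ∈ T.1 then 1 else 0) - 1 / 3) / 2

theorem sum_cmu (S T : Tri h) : ∑ j ∈ S.1, cmu j T = cM S T := by
  simp only [cmu, cM]
  rw [← Finset.sum_div, Finset.sum_sub_distrib, Finset.sum_const, S.2, Finset.sum_boole,
    Finset.filter_mem_eq_inter]
  norm_num

theorem identity_split {E : Type} [AddCommGroup E] [Module ℂ E] (x : Tri h → E) (T : Tri h) :
    ∑ j, cmu j T • (∑ S : Tri h, if j ∈ S.1 then x S else 0) +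
      ∑ p : Orth h, (if p.1.2 = T then -cM p.1.1 T else 0) • x p.1.1 = x T := by
  have h1 : ∑ j, cmu j T • (∑ S : Tri h, if j ∈ S.1 then x S else 0) = ∑ S, cM S T • x S := by
    simp only [Finset.smul_sum]
    rw [Finset.sum_comm]
    refine Finset.sum_congr rfl fun S _ => ?_
    rw [← sum_cmu, Finset.sum_smul]
    simp only [smul_ite, smul_zero]
    rw [Finset.sum_ite_mem, Finset.univ_inter]
  have h2 : ∑ p : Orth h, (if p.1.2 = T then -cM p.1.1 T else 0) • x p.1.1 =
      ∑ S : Tri h, (if (S.1 ∩ T.1).card = 0 ∨ (S.1 ∩ T.1).card = 2 then -cM S T else 0) • x S := by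
    rw [← Finset.sum_subtype (Finset.univ.filter fun p : Tri h × Tri h =>
      (p.1.1 ∩ p.2.1).card = 0 ∨ (p.1.1 ∩ p.2.1).card = 2) (by simp)
      (fun p : Tri h × Tri h => (if p.2 = T then -cM p.1 T else 0) • x p.1),
      Finset.sum_filter, Fintype.sum_prod_type]
    refine Finset.sum_congr rfl fun S _ => ?_
    rw [Finset.sum_eq_single T]
    · split_ifs <;> simp_all
    · intro T' _ hT'
      simp [hT']
    · simp
  rw [h1, h2, ← Finset.sum_add_distrib, Finset.sum_eq_single T]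
  · have : (T.1 ∩ T.1).card = 3 := by rw [Finset.inter_self, T.2]
    rw [← add_smul, cM, this]
    norm_num
  · intro S _ hS
    rw [← add_smul]
    split_ifs with h3
    · simp
    · have h4 : (S.1 ∩ T.1).card ≤ 3 := (Finset.card_le_card Finset.inter_subset_left).trans S.2.le
      have h5 : (S.1 ∩ T.1).card ≠ 3 := fun h5 => by
        apply hS
        apply Subtype.ext
        have e1 : S.1 ∩ T.1 = S.1 :=
          Finset.eq_of_subset_of_card_le Finset.inter_subset_left (by rw [h5, S.2])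
        have e2 : S.1 ∩ T.1 = T.1 :=
          Finset.eq_of_subset_of_card_le Finset.inter_subset_right (by rw [h5, T.2])
        rw [← e1, e2]
      have h6 : (S.1 ∩ T.1).card = 1 := by omega
      simp [cM, h6]
  · simp

section gadget
variable {ι : Type} [Fintype ι] [DecidableEq ι] {E : Type} [AddCommGroup E] [Module ℂ E]

/-- Entry label of an upper register. -/
def up (lo : Lab ι) (φ : (ι → ZMod 4) →+ (Fin h → ZMod 4)) (t : Tri h) : Lab ι :=
  fun z => lo z + ell t.1 (φ z) ^ 2

/-- Common exit label. -/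
def hi (lo : Lab ι) (φ : (ι → ZMod 4) →+ (Fin h → ZMod 4)) : Lab ι :=
  fun z => lo z - nrm (φ z)

/-- Exit label of a lower register. -/
def dn (lo : Lab ι) (φ : (ι → ZMod 4) →+ (Fin h → ZMod 4)) (t : Tri h) : Lab ι :=
  fun z => lo z - nrm (φ z) - ell t.1 (φ z) ^ 2

/-- The number of moves in one gadget. -/
def gadgetCost (h : ℕ) : ℕ :=
  Fintype.card (Orth h) * 1 + (Fintype.card (Orth h) * (h - 2) + (Fintype.card (Tri h) * (h - 1) +
    (Fintype.card (Fin h) * h + (Fintype.card (Tri h) * (h - 1) + (Fintype.card (Tri h) * 0 +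
      (Fintype.card (Orth h) * 1 + (Fintype.card (Orth h) * 0 + 0)))))))

theorem gadget (hh : 8 ≤ h) (lo : Lab ι) (φ : (ι → ZMod 4) →+ (Fin h → ZMod 4))
    (x y : Tri h → E) (a : Orth h → E) (T : Set (Lab ι × E))
    (hx : ∀ t, (up lo φ t, x t) ∈ T) (hy : ∀ t, (lo, y t) ∈ T) (ha : ∀ p, (lo, a p) ∈ T) :
    Net T (gadgetCost h) (Set.range (fun t => (hi lo φ, x t)) ∪
      Set.range (fun t => (dn lo φ t, y t + x t)) ∪ Set.range (fun p => (hi lo φ, a p))) := by
  refine Net.next (fun p : Orth h => (up lo φ p.1.1, a p)) 1 (fun p => Net.move (ha p) ?_)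
    fun T1 h1 z1 => ?_
  · exact (Short.one ((ell p.1.1.1).comp φ)).congr fun z => by simp [up]
  refine Net.next (fun p : Orth h => (dn lo φ p.1.2, a p + x p.1.1)) (h - 2)
    (fun p => Net.step (up lo φ p.1.1) ?_ ?_) fun T2 h2 z2 => ?_
  · exact Submodule.add_mem _ (Submodule.subset_span (z1 p))
      (Submodule.subset_span (h1 (hx p.1.1)))
  · refine ((short_pair hh _ _ p.1.1.2 p.1.2.2 p.2).comp φ).neg.congr fun z => ?_
    simp only [Pi.sub_apply, Pi.neg_apply, up, dn]
    ring
  refine Net.next (fun t : Tri h => (hi lo φ, x t)) (h - 1)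
    (fun t => Net.move (h2 (h1 (hx t))) ?_) fun T3 h3 z3 => ?_
  · refine ((short_line hh _ t.2).comp φ).neg.congr fun z => ?_
    simp only [Pi.sub_apply, Pi.neg_apply, up, hi]
    ring
  refine Net.next (fun j : Fin h => (lo, ∑ S : Tri h, if j ∈ S.1 then x S else 0)) h
    (fun j => Net.step (hi lo φ) ?_ ?_) fun T4 h4 z4 => ?_
  · refine Submodule.sum_mem _ fun S _ => ?_
    split_ifs
    · exact Submodule.subset_span (z3 S)
    · exact Submodule.zero_mem _
  · refine (short_nrm.comp φ).congr fun z => ?_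
    simp only [Pi.sub_apply, hi]
    ring
  refine Net.next (fun t : Tri h => (dn lo φ t, y t -
      ∑ p : Orth h, (if p.1.2 = t then -cM p.1.1 t else 0) • a p +
      ∑ j, cmu j t • (∑ S : Tri h, if j ∈ S.1 then x S else 0))) (h - 1)
    (fun t => Net.step lo ?_ ?_) fun T5 h5 z5 => ?_
  · refine Submodule.add_mem _ (Submodule.sub_mem _ ?_ ?_) ?_
    · exact Submodule.subset_span (h4 (h3 (h2 (h1 (hy t)))))
    · exact Submodule.sum_mem _ fun p _ => Submodule.smul_mem _ _
        (Submodule.subset_span (h4 (h3 (h2 (h1 (ha p))))))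
    · exact Submodule.sum_mem _ fun j _ => Submodule.smul_mem _ _ (Submodule.subset_span (z4 j))
  · refine ((short_line hh _ t.2).comp φ).neg.congr fun z => ?_
    simp only [Pi.sub_apply, Pi.neg_apply, dn]
    ring
  refine Net.next (fun t : Tri h => (dn lo φ t, y t + x t)) 0
    (fun t => Net.lin ?_) fun T6 h6 z6 => ?_
  · have e : y t + x t = (y t - ∑ p : Orth h, (if p.1.2 = t then -cM p.1.1 t else 0) • a p +
        ∑ j, cmu j t • (∑ S : Tri h, if j ∈ S.1 then x S else 0)) +
        ∑ p : Orth h, (if p.1.2 = t then -cM p.1.1 t else 0) • (a p + x p.1.1) := by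
      conv_lhs => rw [← identity_split x t]
      simp only [smul_add, Finset.sum_add_distrib]
      abel
    rw [e]
    refine Submodule.add_mem _ (Submodule.subset_span (z5 t)) (Submodule.sum_mem _ fun p _ => ?_)
    split_ifs with hp
    · subst hp
      exact Submodule.smul_mem _ _ (Submodule.subset_span (h5 (h4 (h3 (z2 p)))))
    · rw [zero_smul]
      exact Submodule.zero_mem _
  refine Net.next (fun p : Orth h => (hi lo φ, a p + x p.1.1)) 1
    (fun p => Net.move (h6 (h5 (h4 (h3 (z2 p))))) ?_) fun T7 h7 z7 => ?_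
  · refine (Short.one ((ell p.1.2.1).comp φ)).congr fun z => ?_
    simp only [Pi.sub_apply, hi, dn, AddMonoidHom.comp_apply]
    ring
  refine Net.next (fun p : Orth h => (hi lo φ, a p)) 0
    (fun p => Net.lin ?_) fun T8 h8 z8 => ?_
  · have e : a p = (a p + x p.1.1) - x p.1.1 := by abel
    rw [e]
    exact Submodule.sub_mem _ (Submodule.subset_span (z7 p))
      (Submodule.subset_span (h7 (h6 (h5 (h4 (z3 p.1.1))))))
  refine Net.done ?_
  rintro _ ((⟨t, rfl⟩ | ⟨t, rfl⟩) | ⟨p, rfl⟩)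
  · exact h8 (h7 (h6 (h5 (h4 (z3 t)))))
  · exact h8 (h7 (z6 t))
  · exact z8 p

end gadget

/-- The registers of the network. -/
abbrev Reg (h : ℕ) : Type :=
  (Tri h × Tri h) ⊕ (Tri h × Tri h) ⊕ (Tri h × Orth h) ⊕ (Tri h × Orth h)

/-- The initial labels. -/
def lab0 : Reg h → Lab (Fin h × Fin h)
  | Sum.inl t => up 0 (row t.2.1) t.1
  | Sum.inr _ => 0

/-- The low label of the second stage. -/
def lo2 (t : Tri h) : Lab (Fin h × Fin h) := fun z => nrm z + nrm (col t.1 z)

/-- The number of moves in the network. -/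
def netCost (h : ℕ) : ℕ :=
  Fintype.card (Tri h) * gadgetCost h + (Fintype.card (Tri h × Tri h) * 1 +
    (Fintype.card (Tri h × Tri h) * ((h - 1) * (h - 1)) +
    (Fintype.card (Tri h × Tri h) * ((h - 1) * (h - 1)) +
    (Fintype.card (Tri h × Orth h) * (h * (h - 1)) +
    (Fintype.card (Tri h × Orth h) * (h * (h - 1)) +
    (Fintype.card (Tri h) * gadgetCost h + (Fintype.card (Reg h) * 0 + 0)))))))

theorem network (hh : 8 ≤ h) {E : Type} [AddCommGroup E] [Module ℂ E] (d : Reg h → E) :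
    Net (Set.range fun w => (lab0 w, d w)) (netCost h)
      (Set.range fun w => ((fun z => ∑ i, z i ^ 2) + lab0 w, d w)) := by
  set X : Tri h × Tri h → E := fun t => d (Sum.inl t) with hX
  set Y : Tri h × Tri h → E := fun t => d (Sum.inr (Sum.inl t)) with hY
  set A1 : Tri h × Orth h → E := fun t => d (Sum.inr (Sum.inr (Sum.inl t))) with hA1
  set A2 : Tri h × Orth h → E := fun t => d (Sum.inr (Sum.inr (Sum.inr t))) with hA2
  refine Net.nextU _ (fun t2 : Tri h => gadget hh 0 (row t2.1) (fun t1 => X (t1, t2))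
    (fun t1 => Y (t1, t2)) (fun p => A1 (t2, p)) _ (fun t1 => ⟨Sum.inl (t1, t2), rfl⟩)
    (fun t1 => ⟨Sum.inr (Sum.inl (t1, t2)), rfl⟩)
    (fun p => ⟨Sum.inr (Sum.inr (Sum.inl (t2, p))), rfl⟩)) fun T1 h1 z1 => ?_
  have z1x : ∀ t : Tri h × Tri h, (hi 0 (row t.2.1), X t) ∈ T1 :=
    fun t => z1 t.2 (Or.inl (Or.inl ⟨t.1, rfl⟩))
  have z1y : ∀ t : Tri h × Tri h, (dn 0 (row t.2.1) t.1, Y t + X t) ∈ T1 :=
    fun t => z1 t.2 (Or.inl (Or.inr ⟨t.1, rfl⟩))
  have z1a : ∀ t : Tri h × Orth h, (hi 0 (row t.1.1), A1 t) ∈ T1 :=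
    fun t => z1 t.1 (Or.inr ⟨t.2, rfl⟩)
  have z1b : ∀ t : Tri h × Orth h, ((0 : Lab (Fin h × Fin h)), A2 t) ∈ T1 :=
    fun t => h1 ⟨Sum.inr (Sum.inr (Sum.inr t)), rfl⟩
  refine Net.next (fun t : Tri h × Tri h => (hi 0 (row t.2.1), Y t + X t)) 1
    (fun t => Net.move (z1y t) ?_) fun T2 h2 z2 => ?_
  · refine (Short.one ((ell t.1.1).comp (row t.2.1))).congr fun z => ?_
    simp only [Pi.sub_apply, hi, dn, AddMonoidHom.comp_apply]
    ring
  refine Net.next (fun t : Tri h × Tri h => (up (lo2 t.1) (col t.1.1) t.2, -Y t))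
    ((h - 1) * (h - 1)) (fun t => Net.step (hi 0 (row t.2.1)) ?_ ?_) fun T3 h3 z3 => ?_
  · have e : -Y t = X t - (Y t + X t) := by abel
    rw [e]
    exact Submodule.sub_mem _ (Submodule.subset_span (h2 (z1x t))) (Submodule.subset_span (z2 t))
  · refine (short_both hh _ _ t.1.2 t.2.2).congr fun z => ?_
    simp only [Pi.sub_apply, hi, up, lo2, Pi.zero_apply, ell_row]
    ring
  refine Net.next (fun t : Tri h × Tri h => (lo2 t.1, Y t + X t))
    ((h - 1) * (h - 1)) (fun t => Net.move (h3 (h2 (z1y t))) ?_) fun T4 h4 z4 => ?_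
  · refine (short_both hh _ _ t.1.2 t.2.2).congr fun z => ?_
    simp only [Pi.sub_apply, dn, lo2, Pi.zero_apply]
    ring
  refine Net.next (fun t : Tri h × Orth h => ((nrm : Lab (Fin h × Fin h)), A1 t))
    (h * (h - 1)) (fun t => Net.move (h4 (h3 (h2 (z1a t)))) ?_) fun T5 h5 z5 => ?_
  · refine (short_row hh _ t.1.2).congr fun z => ?_
    simp only [Pi.sub_apply, hi, Pi.zero_apply]
    ring
  refine Net.next (fun t : Tri h × Orth h => (lo2 t.1, A2 t))
    (h * (h - 1)) (fun t => Net.move (h5 (h4 (h3 (h2 (z1b t))))) ?_) fun T6 h6 z6 => ?_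
  · refine (short_col hh _ t.1.2).congr fun z => ?_
    simp only [Pi.sub_apply, lo2, Pi.zero_apply]
    ring
  refine Net.nextU _ (fun t1 : Tri h => gadget hh (lo2 t1) (col t1.1) (fun t2 => -Y (t1, t2))
    (fun t2 => Y (t1, t2) + X (t1, t2)) (fun p => A2 (t1, p)) _
    (fun t2 => h6 (h5 (h4 (z3 (t1, t2))))) (fun t2 => h6 (h5 (z4 (t1, t2))))
    (fun p => z6 (t1, p))) fun T7 h7 z7 => ?_
  refine Net.next (fun w : Reg h => ((fun z => ∑ i, z i ^ 2) + lab0 w, d w)) 0
    (fun w => ?_) fun T8 h8 z8 => Net.done ?_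
  · rcases w with t | t | t | t
    · refine Net.step (dn (lo2 t.1) (col t.1.1) t.2) ?_ ?_
      · have e : d (Sum.inl t) = Y t + X t + -Y t := by simp only [hX]; abel
        rw [e]
        exact Submodule.subset_span (z7 t.1 (Or.inl (Or.inr ⟨t.2, rfl⟩)))
      · refine (Short.two ((ell t.2.1).comp (col t.1.1))).congr fun z => ?_
        simp only [Pi.sub_apply, Pi.add_apply, lab0, up, dn, lo2, Pi.zero_apply, ell_row, nrm,
          AddMonoidHom.comp_apply]
        ring
    · refine Net.step (hi (lo2 t.1) (col t.1.1)) ?_ ?_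
      · have e : d (Sum.inr (Sum.inl t)) = -(-Y t) := by simp only [hY, neg_neg]
        rw [e]
        exact Submodule.neg_mem _ (Submodule.subset_span (z7 t.1 (Or.inl (Or.inl ⟨t.2, rfl⟩))))
      · refine (Short.zero 0).congr fun z => ?_
        simp only [Pi.sub_apply, Pi.add_apply, lab0, hi, lo2, Pi.zero_apply, nrm]
        ring
    · refine Net.move (h7 (h6 (z5 t))) ((Short.zero 0).congr fun z => ?_)
      simp only [Pi.sub_apply, Pi.add_apply, lab0, Pi.zero_apply, nrm]
      ring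
    · refine Net.move (z7 t.1 (Or.inr ⟨t.2, rfl⟩)) ((Short.zero 0).congr fun z => ?_)
      simp only [Pi.sub_apply, Pi.add_apply, lab0, hi, lo2, Pi.zero_apply, nrm]
      ring
  · rintro _ ⟨w, rfl⟩
    exact z8 w

theorem netCost_eq (hh : 8 ≤ h) :
    netCost h + Fintype.card (Tri h) ^ 2 =
      Fintype.card (Reg h) * (h * h) + 2 * Fintype.card (Tri h) * (h * h) := by
  obtain ⟨k, rfl⟩ : ∃ k, h = k + 2 := ⟨h - 2, by omega⟩
  simp only [netCost, gadgetCost, Fintype.card_sum, Fintype.card_prod, Fintype.card_fin]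
  generalize Fintype.card (Tri (k + 2)) = v
  generalize Fintype.card (Orth (k + 2)) = s
  rw [show k + 2 - 1 = k + 1 from rfl, show k + 2 - 2 = k from rfl]
  ring

end Vale.Agent.P344
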