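import Vale.Agent.P344.InPlace

/-!
Multidimensional transforms, the Chinese remainder reindexing and the chirp reduction.
-/

namespace Vale.Agent.P344

open Finset Matrix Kronecker Complex

/-- The cost per point of a multidimensional transform with `r` axes of length at most `S`. -/
noncomputable def Phi (K : ℝ) (S r : ℕ) : ℝ :=
  ((9 * (16 * (Nat.log 2 S + 2) + 5) * 6 : ℕ) : ℝ) * (K * ((r : ℝ) + 1) ^ theta + 1) + 1

theorem Phi_mono {K : ℝ} (hK : 0 ≤ K) (S : ℕ) {r r' : ℕ} (h : r ≤ r') : Phi K S r ≤ Phi K S r' := by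
  unfold Phi
  have : (0 : ℝ) ≤ theta := by rw [theta]; norm_num
  gcongr

theorem Phi_nonneg {K : ℝ} (hK : 0 ≤ K) (S r : ℕ) : 0 ≤ Phi K S r := by
  unfold Phi
  positivity

section
variable {K : ℝ} (hK0 : 0 ≤ K)
  (hK : ∀ k : ℕ, (cost (tpow k C2) : ℝ) ≤ K * 2 ^ k * ((k : ℝ) + 1) ^ theta)
include hK0 hK

theorem cost_batch_dft {J B : Type} [Fintype J] [DecidableEq J] [Fintype B] [DecidableEq B]
    (s : J → ℕ) (ζ : J → ℂ) (hζ : ∀ j, IsPrimitiveRoot (ζ j) (s j)) (S : ℕ)
    (hs : ∀ j, s j ≠ 0) (hS : ∀ j, s j ≤ S) :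
    (cost ((1 : Matrix B B ℂ) ⊗ₖ tprod fun j => dft (s j) (ζ j)) : ℝ) ≤
      (Fintype.card B + 6 ^ Fintype.card J) * (∏ j, s j : ℕ) * Phi K S (Fintype.card J) := by
  have h1 : ∀ j, Dep CLayer (9 * (16 * (Nat.log 2 S + 2) + 5) * 6)
      ((1 : Matrix (Bool × Fin 3) (Bool × Fin 3) ℂ) ⊗ₖ dft (s j) (ζ j)) := fun j => by
    have a1 := Nat.pow_log_le_self 2 (hs j)
    have a2 := Nat.lt_pow_succ_log_self one_lt_two (s j)
    have a3 : Nat.log 2 (s j) ≤ Nat.log 2 S := Nat.log_mono_right (hS j)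
    have h := dep_six (e := Nat.log 2 (s j) + 2) (by rw [pow_succ]; omega)
      (by rw [pow_add]; omega) (hζ j)
    refine Dep.bind (fun L hL => hL.dep ?_) (h.mono_le (by omega))
    simp only [Fintype.card_prod, Fintype.card_bool, Fintype.card_fin, mul_assoc]
    exact even_two_mul _
  have h2 := cost_tprod_dep hK _ h1
  have h3 : (1 : Matrix (J → Bool × Fin 3) (J → Bool × Fin 3) ℂ) ⊗ₖ
      (tprod fun j => dft (s j) (ζ j)) =
      (tprod fun j => (1 : Matrix (Bool × Fin 3) (Bool × Fin 3) ℂ) ⊗ₖ dft (s j) (ζ j)).submatrix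
        (fun p j => (p.1 j, p.2 j)) (fun p j => (p.1 j, p.2 j)) := by
    ext ⟨a, x⟩ ⟨b, y⟩
    simp only [tprod_apply, Matrix.submatrix_apply, Matrix.kroneckerMap_apply, Matrix.one_apply,
      Finset.prod_mul_distrib]
    rw [prod_ite_eq_fun]
  have h4 : cost ((1 : Matrix (J → Bool × Fin 3) (J → Bool × Fin 3) ℂ) ⊗ₖ
      (tprod fun j => dft (s j) (ζ j))) ≤ cost (tprod fun j =>
        (1 : Matrix (Bool × Fin 3) (Bool × Fin 3) ℂ) ⊗ₖ dft (s j) (ζ j)) := by
    rw [h3]
    refine cost_submatrix_le _ _ _ ?_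
    rintro ⟨a, x⟩ ⟨b, y⟩ h
    exact Prod.ext (funext fun j => (Prod.mk.inj (congrFun h j)).1)
      (funext fun j => (Prod.mk.inj (congrFun h j)).2)
  have hc : Fintype.card (J → Bool × Fin 3) = 6 ^ Fintype.card J := by simp
  have hpos : 0 < 6 ^ Fintype.card J := by positivity
  have h5 := cost_batch (B := B) (W := J → Bool × Fin 3) (tprod fun j => dft (s j) (ζ j))
    (Fintype.card B / 6 ^ Fintype.card J + 1) (by
      rw [hc]
      have := Nat.lt_div_mul_add (a := Fintype.card B) hpos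
      nlinarith)
  have h6 : Fintype.card (∀ j, (Bool × Fin 3) × Fin (s j)) = 6 ^ Fintype.card J * ∏ j, s j := by
    simp [Fintype.card_pi, Finset.prod_mul_distrib]
  rw [h6] at h2
  have h7 : ((Fintype.card B / 6 ^ Fintype.card J + 1 : ℕ) : ℝ) * 6 ^ Fintype.card J ≤
      Fintype.card B + 6 ^ Fintype.card J := by
    have := Nat.div_mul_le_self (Fintype.card B) (6 ^ Fintype.card J)
    have h8 : (Fintype.card B / 6 ^ Fintype.card J + 1) * 6 ^ Fintype.card J ≤
        Fintype.card B + 6 ^ Fintype.card J := by nlinarith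
    exact_mod_cast h8
  have h9 := Phi_nonneg hK0 S (Fintype.card J)
  calc (cost ((1 : Matrix B B ℂ) ⊗ₖ tprod fun j => dft (s j) (ζ j)) : ℝ)
      ≤ ((Fintype.card B / 6 ^ Fintype.card J + 1 : ℕ) : ℝ) * cost (tprod fun j =>
        (1 : Matrix (Bool × Fin 3) (Bool × Fin 3) ℂ) ⊗ₖ dft (s j) (ζ j)) := by
        exact_mod_cast h5.trans (Nat.mul_le_mul_left _ h4)
    _ ≤ ((Fintype.card B / 6 ^ Fintype.card J + 1 : ℕ) : ℝ) *
        (((6 ^ Fintype.card J * ∏ j, s j : ℕ) : ℝ) * Phi K S (Fintype.card J)) := by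
        gcongr
        exact h2
    _ = (((Fintype.card B / 6 ^ Fintype.card J + 1 : ℕ) : ℝ) * 6 ^ Fintype.card J) *
        (∏ j, s j : ℕ) * Phi K S (Fintype.card J) := by
        rw [Nat.cast_mul, Nat.cast_pow, Nat.cast_ofNat]; ring
    _ ≤ _ := by gcongr

omit hK0 hK in
theorem six_pow_le {J : Type} [Fintype J] (s : J → ℕ) (hs : ∀ j, s j ≠ 0)
    (hinj : Function.Injective s) : 6 ^ Fintype.card J ≤ 6 ^ 6 * ∏ j, s j := by
  have h1 : (Finset.univ.filter fun j => s j < 6).card ≤ 6 := by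
    have := Finset.card_le_card_of_injOn (s := Finset.univ.filter fun j => s j < 6)
      (t := Finset.range 6) s (fun j hj => by simpa using hj) hinj.injOn
    simpa using this
  calc 6 ^ Fintype.card J = ∏ _j : J, 6 := by simp
    _ ≤ ∏ j, ((if s j < 6 then 6 else 1) * s j) := Finset.prod_le_prod' fun j _ => by
        have := hs j
        split_ifs <;> omega
    _ = 6 ^ (Finset.univ.filter fun j => s j < 6).card * ∏ j, s j := by
        rw [Finset.prod_mul_distrib, Finset.prod_ite]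
        simp
    _ ≤ _ := by gcongr; norm_num

theorem cost_tprod_dft {J : Type} [Fintype J] [DecidableEq J]
    (s : J → ℕ) (ζ : J → ℂ) (hζ : ∀ j, IsPrimitiveRoot (ζ j) (s j)) (S : ℕ)
    (hs : ∀ j, s j ≠ 0) (hS : ∀ j, s j ≤ S) (hinj : Function.Injective s) :
    (cost (tprod fun j => dft (s j) (ζ j)) : ℝ) ≤
      2 * (1 + 6 ^ 7) * (∏ j, s j : ℕ) * Phi K S (Fintype.card J) := by
  obtain ⟨I1, -, hI1⟩ := Finset.exists_subset_card_eq (s := (Finset.univ : Finset J))
    (n := Fintype.card J / 2) (Nat.div_le_self _ _)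
  obtain ⟨p, _, hr1⟩ : ∃ (p : J → Prop) (_ : DecidablePred p),
      Fintype.card {j // p j} = Fintype.card J / 2 :=
    ⟨fun j => j ∈ I1, inferInstance, by rw [Fintype.card_subtype]; simpa using hI1⟩
  have hr2 : Fintype.card {j // ¬ p j} = Fintype.card J - Fintype.card J / 2 := by
    rw [Fintype.card_subtype_compl, hr1]
  let e := Equiv.piEquivPiSubtypeProd p (fun j => Fin (s j))
  set F1 := tprod fun j : {j // p j} => dft (s j) (ζ j) with hF1
  set F2 := tprod fun j : {j // ¬ p j} => dft (s j) (ζ j) with hF2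
  have h1 : (tprod fun j => dft (s j) (ζ j)) =
      ((F1 ⊗ₖ (1 : Matrix (∀ j : {j // ¬ p j}, Fin (s j)) (∀ j : {j // ¬ p j}, Fin (s j)) ℂ)) *
        ((1 : Matrix (∀ j : {j // p j}, Fin (s j)) (∀ j : {j // p j}, Fin (s j)) ℂ) ⊗ₖ
          F2)).submatrix e e := by
    rw [← Matrix.mul_kronecker_mul, Matrix.mul_one, Matrix.one_mul]
    ext x y
    simp only [hF1, hF2, tprod_apply, Matrix.submatrix_apply, Matrix.kroneckerMap_apply]
    exact (Fintype.prod_subtype_mul_prod_subtype p fun j => dft (s j) (ζ j) (x j) (y j)).symm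
  have h2 : cost (tprod fun j => dft (s j) (ζ j)) ≤
      cost ((1 : Matrix (∀ j : {j // ¬ p j}, Fin (s j)) (∀ j : {j // ¬ p j}, Fin (s j)) ℂ) ⊗ₖ F1) +
      cost ((1 : Matrix (∀ j : {j // p j}, Fin (s j)) (∀ j : {j // p j}, Fin (s j)) ℂ) ⊗ₖ F2) := by
    rw [h1]
    exact (cost_submatrix_le _ _ _ e.injective).trans ((cost_mul_le _ _).trans
      (Nat.add_le_add_right (cost_kron_one _) _))
  have h3 := cost_batch_dft hK0 hK (B := ∀ j : {j // ¬ p j}, Fin (s j))
    (fun j : {j // p j} => s j) (fun j => ζ j) (fun j => hζ j) S (fun j => hs j) (fun j => hS j)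
  have h4 := cost_batch_dft hK0 hK (B := ∀ j : {j // p j}, Fin (s j))
    (fun j : {j // ¬ p j} => s j) (fun j => ζ j) (fun j => hζ j) S (fun j => hs j) (fun j => hS j)
  have h5 := six_pow_le (fun j : {j // p j} => s j) (fun j => hs j)
    (hinj.comp Subtype.val_injective)
  have h6 := six_pow_le (fun j : {j // ¬ p j} => s j) (fun j => hs j)
    (hinj.comp Subtype.val_injective)
  have h7 := Fintype.prod_subtype_mul_prod_subtype p s
  simp only [Fintype.card_pi, Fintype.card_fin] at h3 h4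
  set A1 := ∏ j : {j // p j}, s j with hA1
  set A2 := ∏ j : {j // ¬ p j}, s j with hA2
  have h8 : 6 ^ Fintype.card {j // p j} ≤ 6 ^ 7 * A2 :=
    (Nat.pow_le_pow_right (by norm_num) (by omega)).trans (h6.trans (by omega))
  have h9 : 6 ^ Fintype.card {j // ¬ p j} ≤ 6 ^ 7 * A1 := by
    refine (Nat.pow_le_pow_right (by norm_num)
      (show _ ≤ Fintype.card {j // p j} + 1 by omega)).trans ?_
    rw [pow_succ]
    omega
  have h8' : (6 : ℝ) ^ Fintype.card {j // p j} ≤ 6 ^ 7 * A2 := by exact_mod_cast h8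
  have h9' : (6 : ℝ) ^ Fintype.card {j // ¬ p j} ≤ 6 ^ 7 * A1 := by exact_mod_cast h9
  have hP1 := Phi_mono hK0 S (show Fintype.card {j // p j} ≤ Fintype.card J by omega)
  have hP2 := Phi_mono hK0 S (show Fintype.card {j // ¬ p j} ≤ Fintype.card J by omega)
  have hP0 := Phi_nonneg hK0 S (Fintype.card {j // p j})
  have hP0' := Phi_nonneg hK0 S (Fintype.card {j // ¬ p j})
  rw [← h7]
  calc (cost (tprod fun j => dft (s j) (ζ j)) : ℝ) ≤ _ := Nat.cast_le.mpr h2
    _ ≤ (A2 + 6 ^ Fintype.card {j // p j}) * A1 * Phi K S (Fintype.card {j // p j}) +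
        (A1 + 6 ^ Fintype.card {j // ¬ p j}) * A2 * Phi K S (Fintype.card {j // ¬ p j}) := by
        rw [Nat.cast_add]
        exact add_le_add h3 h4
    _ ≤ (A2 + 6 ^ 7 * A2) * A1 * Phi K S (Fintype.card J) +
        (A1 + 6 ^ 7 * A1) * A2 * Phi K S (Fintype.card J) := by gcongr
    _ = _ := by push_cast; ring

theorem cost_dftMatrix {J : Type} [Fintype J] [DecidableEq J] (s : J → ℕ) (S : ℕ)
    (hs : ∀ j, s j ≠ 0) (hS : ∀ j, s j ≤ S) (hinj : Function.Injective s)
    (hcop : Pairwise fun i j => Nat.Coprime (s i) (s j)) (n : ℕ) (hn : 2 * n ≤ ∏ j, s j) :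
    (cost (dftMatrix n) : ℝ) ≤ 2 * n + (∏ j, s j : ℕ) +
      4 * (1 + 6 ^ 7) * (∏ j, s j : ℕ) * Phi K S (Fintype.card J) := by
  let ζ : J → ℂ := fun j => Complex.exp (2 * Real.pi * I / s j)
  have hζ : ∀ j, IsPrimitiveRoot (ζ j) (s j) := fun j => Complex.isPrimitiveRoot_exp _ (hs j)
  have hζ0 : ∀ j, ζ j ≠ 0 := fun j => Complex.exp_ne_zero _
  have hdvd : ∀ u : ℤ, (∀ j, (s j : ℤ) ∣ u) → |u| < 2 * n → u = 0 := fun u hu hlt => by
    have h1 : (∏ j, (s j : ℤ)) ∣ u := Fintype.prod_dvd_of_coprime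
      (fun i j hij => Nat.isCoprime_iff_coprime.mpr (hcop hij)) hu
    refine Int.eq_zero_of_abs_lt_dvd h1 (hlt.trans_le ?_)
    exact_mod_cast hn
  have : Nonempty (∀ j, Fin (s j)) := ⟨fun j => ⟨0, Nat.pos_of_ne_zero (hs j)⟩⟩
  obtain ⟨ω, hω⟩ := IsAlgClosed.exists_eq_mul_self (Complex.exp (2 * Real.pi * I / n))
  have hω0 : ω ≠ 0 := left_ne_zero_of_mul (hω ▸ Complex.exp_ne_zero _)
  obtain ⟨d, hd⟩ := toeplitz (fun l : ∀ j, Fin (s j) => ∏ j, ζ j ^ (l j : ℕ))
    (fun l => Finset.prod_ne_zero_iff.mpr fun j _ => pow_ne_zero _ (hζ0 j)) n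
    (fun u hu hlt => by
      simp only [← Finset.prod_zpow]
      rw [← Fintype.piFinset_univ, ← Finset.prod_univ_sum (fun _ => Finset.univ)
        (fun j (a : Fin (s j)) => (ζ j ^ (a : ℕ)) ^ u)]
      by_contra hne
      refine hu (hdvd u (fun j => ?_) hlt)
      by_contra hj
      exact hne (Finset.prod_eq_zero (Finset.mem_univ j) (sum_zpow_eq_zero (hζ j) hj)))
    (fun u => ω ^ (-u ^ 2))
  let crt : Fin n → ∀ j, Fin (s j) := fun k j => ⟨k % s j, Nat.mod_lt _ (Nat.pos_of_ne_zero (hs j))⟩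
  have hcrt : Function.Injective crt := fun k k' h => by
    have := hdvd ((k' : ℤ) - k) (fun j => (Nat.modEq_iff_dvd).mp (Fin.mk.inj (congrFun h j))) (by
      have := k.2; have := k'.2
      rw [abs_lt]; constructor <;> omega)
    exact Fin.ext (by omega)
  have hmod : ∀ (j : J) (η : ℂ), η ^ s j = 1 → ∀ a b : ℕ, η ^ (a % s j * b) = (η ^ b) ^ a :=
    fun j η hη a b => by
      rw [mul_comm, pow_mul]
      exact (pow_eq_pow_mod a (by rw [← pow_mul, mul_comm, pow_mul, hη, one_pow])).symm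
  set A := (tprod fun j => dft (s j) (ζ j)).submatrix id crt with hA
  set A' := (tprod fun j => dft (s j) (ζ j)⁻¹).submatrix crt id with hA'
  set D : Matrix (Fin n) (Fin n) ℂ := Matrix.diagonal fun k => ω ^ ((k : ℕ) ^ 2) with hD
  have h1 : dftMatrix n = D * (A' * (Matrix.diagonal d : Matrix _ _ ℂ) * A) * D := by
    ext j k
    rw [hD, Matrix.mul_diagonal, Matrix.diagonal_mul, dftMatrix, hω, chirp ω hω0, ← hd j k,
      Matrix.mul_apply]
    congr 2
    refine Finset.sum_congr rfl fun l _ => ?_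
    rw [Matrix.mul_diagonal]
    simp only [hA, hA', Matrix.submatrix_apply, tprod_apply, dft_apply, id, crt]
    rw [← Finset.prod_inv_distrib, ← Finset.prod_pow, ← Finset.prod_pow]
    congr 1
    · congr 1
      refine Finset.prod_congr rfl fun i _ => ?_
      rw [hmod i _ (hζ i).inv.pow_eq_one, inv_pow (ζ i)]
    · refine Finset.prod_congr rfl fun i _ => ?_
      rw [mul_comm, hmod i _ (hζ i).pow_eq_one]
  have h2 : cost (dftMatrix n) ≤ n + (cost (tprod fun j => dft (s j) (ζ j)⁻¹) + ∏ j, s j +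
      cost (tprod fun j => dft (s j) (ζ j))) + n := by
    have hDc : cost D ≤ n := by
      simpa using (isMono_diagonal fun k : Fin n => ω ^ ((k : ℕ) ^ 2)).cost_le
    have hdc : cost (Matrix.diagonal d) ≤ ∏ j, s j := by simpa using (isMono_diagonal d).cost_le
    rw [h1]
    refine (cost_mul_le _ _).trans (add_le_add ((cost_mul_le _ _).trans (add_le_add hDc
      ((cost_mul_le _ _).trans (add_le_add ((cost_mul_le _ _).trans (add_le_add ?_ hdc)) ?_))))
      hDc)
    · exact cost_submatrix_le _ _ _ Function.injective_id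
    · exact cost_submatrix_le _ _ _ hcrt
  have h3 := cost_tprod_dft hK0 hK s ζ hζ S hs hS hinj
  have h4 := cost_tprod_dft hK0 hK s (fun j => (ζ j)⁻¹) (fun j => (hζ j).inv) S hs hS hinj
  have h5 : (cost (dftMatrix n) : ℝ) ≤ n + (cost (tprod fun j => dft (s j) (ζ j)⁻¹) +
      (∏ j, s j : ℕ) + cost (tprod fun j => dft (s j) (ζ j))) + n := by exact_mod_cast h2
  linarith

end

end Vale.Agent.P344
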