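import Vale.Agent.P344.Assembly

/-!
The final estimate.
-/

namespace Vale.Agent.P344

open Finset

theorem two_pow_le_centralBinom (x : ℕ) : 2 ^ x ≤ x.centralBinom := by
  induction x with
  | zero => simp
  | succ x ih =>
    have h := Nat.succ_mul_centralBinom_succ x
    have : (x + 1) * 2 ^ (x + 1) ≤ (x + 1) * (x + 1).centralBinom := by
      rw [h, pow_succ]
      nlinarith [Nat.zero_le (x * x.centralBinom)]
    exact Nat.le_of_mul_le_mul_left this (Nat.succ_pos x)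

theorem centralBinom_succ_le (x : ℕ) : (x + 1).centralBinom ≤ 4 * x.centralBinom := by
  have h := Nat.succ_mul_centralBinom_succ x
  have : (x + 1) * (x + 1).centralBinom ≤ (x + 1) * (4 * x.centralBinom) := by
    rw [h]
    nlinarith [Nat.zero_le x.centralBinom]
  exact Nat.le_of_mul_le_mul_left this (Nat.succ_pos x)

theorem exists_centralBinom (n : ℕ) (hn : 1 ≤ n) :
    ∃ x : ℕ, 1 ≤ x ∧ 2 * n ≤ x.centralBinom ∧ x.centralBinom ≤ 8 * n := by
  have hex : ∃ x : ℕ, 2 * n ≤ x.centralBinom :=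
    ⟨2 * n, (Nat.lt_two_pow_self).le.trans (two_pow_le_centralBinom _)⟩
  have h1 := Nat.find_spec hex
  rcases h : Nat.find hex with _ | x
  · rw [h] at h1
    simp at h1
    omega
  · rw [h] at h1
    have h2 := Nat.find_min hex (show x < Nat.find hex by omega)
    have h3 := centralBinom_succ_le x
    exact ⟨x + 1, by omega, h1, by omega⟩

theorem cost_dft_le_Phi {K : ℝ} (hK0 : 0 ≤ K)
    (hK : ∀ k : ℕ, (cost (tpow k C2) : ℝ) ≤ K * 2 ^ k * ((k : ℝ) + 1) ^ theta)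
    (n : ℕ) (hn : 1 ≤ n) : ∃ x r : ℕ, 1 ≤ x ∧ 2 ^ x ≤ 8 * n ∧ 2 ^ r ≤ 8 * n ∧
      (cost (dftMatrix n) : ℝ) ≤ 10 * n + 32 * (1 + 6 ^ 7) * n * Phi K (2 * x) r := by
  obtain ⟨x, hx, h1, h2⟩ := exists_centralBinom n hn
  set N := x.centralBinom with hN
  have hN0 : N ≠ 0 := by omega
  let s : N.primeFactors → ℕ := fun p => (p : ℕ) ^ N.factorization p
  have hp : ∀ p : N.primeFactors, (p : ℕ).Prime := fun p => Nat.prime_of_mem_primeFactors p.2
  have hprod : ∏ p, s p = N := by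
    rw [Finset.prod_coe_sort N.primeFactors (fun p => p ^ N.factorization p)]
    exact (Nat.prod_primeFactors_pow_factorization hN0).symm
  have hs2 : ∀ p, 2 ≤ s p := fun p => by
    have h3 : 1 ≤ N.factorization p :=
      (hp p).factorization_pos_of_dvd hN0 (Nat.dvd_of_mem_primeFactors p.2)
    calc 2 ≤ (p : ℕ) ^ 1 := by simpa using (hp p).two_le
      _ ≤ s p := Nat.pow_le_pow_right (hp p).pos h3
  have hcop : Pairwise fun p q => Nat.Coprime (s p) (s q) := fun p q hpq =>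
    Nat.coprime_pow_primes _ _ (hp p) (hp q) (fun h => hpq (Subtype.ext h))
  have hinj : Function.Injective s := fun p q h => by
    by_contra hpq
    have h3 : Nat.Coprime (s p) (s q) := hcop hpq
    rw [h, Nat.coprime_self] at h3
    have := hs2 q
    omega
  have h3 := cost_dftMatrix hK0 hK s (2 * x) (fun p => by have := hs2 p; omega)
    (fun p => Nat.pow_factorization_choose_le (by omega)) hinj hcop n (by rw [hprod]; exact h1)
  rw [hprod] at h3
  refine ⟨x, Fintype.card N.primeFactors, hx, (two_pow_le_centralBinom x).trans h2, ?_, ?_⟩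
  · calc 2 ^ Fintype.card N.primeFactors = ∏ _p : N.primeFactors, 2 := by simp
      _ ≤ ∏ p, s p := Finset.prod_le_prod' fun p _ => hs2 p
      _ ≤ 8 * n := by rw [hprod]; exact h2
  · have h4 : (N : ℝ) ≤ 8 * n := by exact_mod_cast h2
    have h5 := Phi_nonneg hK0 (2 * x) (Fintype.card N.primeFactors)
    calc _ ≤ _ := h3
      _ ≤ 2 * n + 8 * n + 4 * (1 + 6 ^ 7) * (8 * n) * Phi K (2 * x) (Fintype.card N.primeFactors) := by
          gcongr
      _ = _ := by ring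

theorem le_logb_of_pow_le {x n : ℕ} (hn : 2 ≤ n) (h : 2 ^ x ≤ 8 * n) :
    (x : ℝ) ≤ 4 * Real.logb 2 n := by
  have hn' : (2 : ℝ) ≤ n := by exact_mod_cast hn
  have h1 : (1 : ℝ) ≤ Real.logb 2 n := by
    rw [Real.le_logb_iff_rpow_le one_lt_two (by linarith)]
    simpa using hn'
  have h2 : (x : ℝ) ≤ Real.logb 2 (8 * n) := by
    rw [Real.le_logb_iff_rpow_le one_lt_two (by linarith), Real.rpow_natCast]
    exact_mod_cast h
  have h3 : Real.logb 2 8 = 3 := by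
    rw [show (8 : ℝ) = 2 ^ (3 : ℝ) by norm_num, Real.logb_rpow (by norm_num) (by norm_num)]
  rw [Real.logb_mul (by norm_num) (by linarith), h3] at h2
  linarith

theorem cost_dft_bound : ∃ C : ℝ, ∀ n : ℕ, 2 ≤ n →
    (cost (dftMatrix n) : ℝ) ≤ C * n * Real.logb 2 n ^ (1 - 5 / 10 ^ 8 : ℝ) := by
  obtain ⟨K, hK0, hK⟩ := cost_tpow_C2
  obtain ⟨η, hη⟩ : ∃ η : ℝ, η = 1 / 10 ^ 8 := ⟨_, rfl⟩
  have hη0 : 0 < η := by rw [hη]; norm_num
  have hl2 : 0 < Real.log 2 := Real.log_pos one_lt_two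
  have hθ0 : 0 ≤ theta := by rw [theta]; norm_num
  have hθ1 : theta ≤ 1 := by rw [theta]; norm_num
  obtain ⟨c1, hc1⟩ : ∃ c1 : ℝ, c1 = 5 + 1 / (η * Real.log 2) := ⟨_, rfl⟩
  have hc10 : 0 ≤ c1 := by rw [hc1]; positivity
  refine ⟨10 + 32 * (1 + 6 ^ 7) * ((864 * c1 + 270) * (5 * K + 1) + 1), fun n hn => ?_⟩
  obtain ⟨x, r, hx, h1, h2, h3⟩ := cost_dft_le_Phi hK0 hK n (by omega)
  have hn' : (2 : ℝ) ≤ n := by exact_mod_cast hn
  have hx' := le_logb_of_pow_le hn h1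
  have hr' := le_logb_of_pow_le hn h2
  have hl1 : (1 : ℝ) ≤ Real.logb 2 n := by
    rw [Real.le_logb_iff_rpow_le one_lt_two (by linarith)]
    simpa using hn'
  generalize Real.logb 2 n = l at *
  have hexp : (1 - 5 / 10 ^ 8 : ℝ) = η + theta := by rw [hη, theta]; norm_num
  have a1 : 1 ≤ l ^ η := Real.one_le_rpow hl1 hη0.le
  have a2 : 1 ≤ l ^ theta := Real.one_le_rpow hl1 hθ0
  have a3 : ((Nat.log 2 (2 * x) : ℕ) : ℝ) + 2 ≤ c1 * l ^ η := by
    have b1 : ((Nat.log 2 (2 * x) : ℕ) : ℝ) ≤ Real.logb 2 ((2 * x : ℕ) : ℝ) := by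
      exact_mod_cast Real.natLog_le_logb (2 * x) 2
    have hx1 : (1 : ℝ) ≤ x := by exact_mod_cast hx
    have b2 : Real.logb 2 ((2 * x : ℕ) : ℝ) ≤ Real.logb 2 (8 * l) :=
      Real.logb_le_logb_of_le one_lt_two (by push_cast; linarith) (by push_cast; linarith)
    have b3 : Real.logb 2 8 = 3 := by
      rw [show (8 : ℝ) = 2 ^ (3 : ℝ) by norm_num, Real.logb_rpow (by norm_num) (by norm_num)]
    rw [Real.logb_mul (by norm_num) (by linarith), b3] at b2
    have b4 : Real.logb 2 l ≤ 1 / (η * Real.log 2) * l ^ η := by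
      have := Real.log_le_rpow_div (show 0 ≤ l by linarith) hη0
      rw [Real.logb, div_le_iff₀ hl2]
      refine this.trans (le_of_eq ?_)
      field_simp
    rw [hc1, add_mul]
    linarith
  have a4 : ((r : ℝ) + 1) ^ theta ≤ 5 * l ^ theta := by
    calc ((r : ℝ) + 1) ^ theta ≤ (5 * l) ^ theta :=
          Real.rpow_le_rpow (by positivity) (by linarith) hθ0
      _ = 5 ^ theta * l ^ theta := Real.mul_rpow (by norm_num) (by linarith)
      _ ≤ 5 * l ^ theta := by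
          gcongr
          calc (5 : ℝ) ^ theta ≤ 5 ^ (1 : ℝ) :=
                Real.rpow_le_rpow_of_exponent_le (by norm_num) hθ1
            _ = 5 := Real.rpow_one 5
  have a5 : Phi K (2 * x) r ≤ ((864 * c1 + 270) * (5 * K + 1) + 1) * (l ^ η * l ^ theta) := by
    have b1 : ((9 * (16 * (Nat.log 2 (2 * x) + 2) + 5) * 6 : ℕ) : ℝ) ≤ (864 * c1 + 270) * l ^ η := by
      push_cast
      nlinarith
    have b2 : K * ((r : ℝ) + 1) ^ theta + 1 ≤ (5 * K + 1) * l ^ theta := by nlinarith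
    have b3 : 1 ≤ l ^ η * l ^ theta := one_le_mul_of_one_le_of_one_le a1 a2
    calc Phi K (2 * x) r ≤ ((864 * c1 + 270) * l ^ η) * ((5 * K + 1) * l ^ theta) + 1 := by
          unfold Phi
          gcongr
      _ ≤ _ := by nlinarith
  rw [hexp, Real.rpow_add (by linarith)]
  have b3 : 1 ≤ l ^ η * l ^ theta := one_le_mul_of_one_le_of_one_le a1 a2
  calc _ ≤ _ := h3
    _ ≤ 10 * n * (l ^ η * l ^ theta) + 32 * (1 + 6 ^ 7) * n *
        (((864 * c1 + 270) * (5 * K + 1) + 1) * (l ^ η * l ^ theta)) := by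
        refine add_le_add (by nlinarith) ?_
        gcongr
    _ = _ := by ring

theorem L_bound : ∃ C : ℝ, ∀ n : ℕ, 2 ≤ n →
    (L n : ℝ) ≤ C * n * Real.logb 2 n ^ (1 - 5 / 10 ^ 8 : ℝ) := by
  obtain ⟨C, hC⟩ := cost_dft_bound
  refine ⟨C, fun n hn => le_trans ?_ (hC n hn)⟩
  obtain ⟨k, D, hD, hk⟩ := exists_circuit n
  exact_mod_cast (Nat.sInf_le (s := {k : ℕ | ∃ C : Circuit n k, C.ComputesDFT}) ⟨D, hD⟩).trans hk

theorem L_spec (n : ℕ) : IsLeast {k : ℕ | ∃ C : Circuit n k, C.ComputesDFT} (L n) := by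
  obtain ⟨k, D, hD, -⟩ := exists_circuit n
  exact ⟨Nat.sInf_mem (s := {k : ℕ | ∃ C : Circuit n k, C.ComputesDFT}) ⟨k, D, hD⟩,
    fun _ h => Nat.sInf_le h⟩

theorem not_lower_bound :
    ¬ ∃ c : ℝ, 0 < c ∧ ∃ n0 : ℕ, ∀ n : ℕ, n0 ≤ n → c * n * Real.logb 2 n ≤ L n := by
  rintro ⟨c, hc, n0, h⟩
  obtain ⟨C, hC⟩ := L_bound
  have ht : Filter.Tendsto (fun n : ℕ => Real.logb 2 n ^ (5 / 10 ^ 8 : ℝ)) Filter.atTop
      Filter.atTop :=
    (tendsto_rpow_atTop (by norm_num)).comp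
      ((Real.tendsto_logb_atTop one_lt_two).comp tendsto_natCast_atTop_atTop)
  obtain ⟨n, hn1, hn2, hn3⟩ := ((ht.eventually_gt_atTop (C / c)).and
    ((Filter.eventually_ge_atTop n0).and (Filter.eventually_ge_atTop 2))).exists
  have h1 := (h n hn2).trans (hC n hn3)
  have hn' : (2 : ℝ) ≤ n := by exact_mod_cast hn3
  have hl : 0 < Real.logb 2 n := Real.logb_pos one_lt_two (by linarith)
  generalize Real.logb 2 n = l at *
  have h2 : l = l ^ (5 / 10 ^ 8 : ℝ) * l ^ (1 - 5 / 10 ^ 8 : ℝ) := by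
    rw [← Real.rpow_add hl]; norm_num
  have h3 : 0 < l ^ (1 - 5 / 10 ^ 8 : ℝ) := Real.rpow_pos_of_pos hl _
  rw [div_lt_iff₀ hc] at hn1
  generalize l ^ (5 / 10 ^ 8 : ℝ) = a at *
  generalize l ^ (1 - 5 / 10 ^ 8 : ℝ) = b at *
  have h4 : 0 < (n : ℝ) * b := by positivity
  rw [h2] at h1
  nlinarith

end Vale.Agent.P344
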