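import Mathlib

/-!
Linear circuits and the gate count of the discrete Fourier transform.
-/

namespace Vale.Agent.P344

/-- A value available to a gate once `k` gates have been placed, in a circuit with `n` inputs:
the constant `0`, an input, or the output of one of the `k` earlier gates. -/
inductive Wire (n k : ℕ) : Type
  | zero : Wire n k
  | input (j : Fin n) : Wire n k
  | gate (g : Fin k) : Wire n k

/-- A gate computes `u + v`, `u - v` or `c • u` from available values, for a fixed complex `c`. -/
inductive Gate (n k : ℕ) : Type
  | add (u v : Wire n k) : Gate n k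
  | sub (u v : Wire n k) : Gate n k
  | smul (c : ℂ) (u : Wire n k) : Gate n k

/-- A linear circuit with `n` inputs and exactly `k` gates, listed in a topological order:
each new gate reads only the constant `0`, inputs and earlier gates. -/
inductive Circuit (n : ℕ) : ℕ → Type
  | nil : Circuit n 0
  | snoc {k : ℕ} (C : Circuit n k) (g : Gate n k) : Circuit n (k + 1)

/-- The value of a wire, given the input `x` and the values `y` of the gates. -/
def Wire.val {n k : ℕ} (x : Fin n → ℂ) (y : Fin k → ℂ) : Wire n k → ℂ
  | .zero => 0
  | .input j => x j
  | .gate g => y g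

/-- The value computed by a gate, given the input `x` and the values `y` of the earlier gates. -/
def Gate.val {n k : ℕ} (x : Fin n → ℂ) (y : Fin k → ℂ) : Gate n k → ℂ
  | .add u v => u.val x y + v.val x y
  | .sub u v => u.val x y - v.val x y
  | .smul c u => c * u.val x y

/-- The values of all gates of a circuit on the input `x`. -/
def Circuit.vals {n : ℕ} (x : Fin n → ℂ) : {k : ℕ} → Circuit n k → Fin k → ℂ
  | _, .nil => Fin.elim0
  | _, .snoc C g => Fin.snoc (α := fun _ => ℂ) (C.vals x) (g.val x (C.vals x))

/-- The unnormalized discrete Fourier matrix `F n = (ζ ^ (j * k))`, `ζ = exp (2 π i / n)`. -/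
noncomputable def dftMatrix (n : ℕ) : Matrix (Fin n) (Fin n) ℂ :=
  fun j k => Complex.exp (2 * Real.pi * Complex.I / n) ^ ((j : ℕ) * (k : ℕ))

/-- The circuit has `n` designated output values that equal `F n x` for every input `x`. -/
def Circuit.ComputesDFT {n k : ℕ} (C : Circuit n k) : Prop :=
  ∃ out : Fin n → Wire n k, ∀ (x : Fin n → ℂ) (j : Fin n),
    (out j).val x (C.vals x) = (dftMatrix n).mulVec x j

/-- `L n`: the least number of gates of a linear circuit computing the Fourier transform. -/
noncomputable def L (n : ℕ) : ℕ :=
  sInf {k : ℕ | ∃ C : Circuit n k, C.ComputesDFT}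

end Vale.Agent.P344
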