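import Vale.Agent.P344.Power

/-!
In-place circuits of bounded depth and their tensor products.
-/

namespace Vale.Agent.P344

open Finset Matrix Kronecker Complex

section inc
variable {α β γ : Type}

/-- The inclusion matrix of a map of index sets. -/
def inc [DecidableEq α] (e : β → α) : Matrix α β ℂ := Matrix.of fun a b => if a = e b then 1 else 0

theorem inc_apply [DecidableEq α] (e : β → α) (a : α) (b : β) :
    inc e a b = if a = e b then 1 else 0 := rfl

theorem incT_mul [Fintype α] [DecidableEq α] (e : β → α) (A : Matrix α γ ℂ) :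
    (inc e)ᵀ * A = A.submatrix e id := by
  ext b c
  simp [Matrix.mul_apply, inc_apply]

theorem mul_inc [Fintype α] [DecidableEq α] (e : β → α) (A : Matrix γ α ℂ) :
    A * inc e = A.submatrix id e := by
  ext b c
  simp [Matrix.mul_apply, inc_apply]

theorem incT_mul_inc [Fintype α] [DecidableEq α] [DecidableEq β] {e : β → α}
    (he : Function.Injective e) : (inc e)ᵀ * inc e = 1 := by
  rw [incT_mul]
  ext b c
  simp [inc_apply, Matrix.one_apply, he.eq_iff]

theorem incT_mul_inc_disj [Fintype α] [DecidableEq α] {f : β → α} {g : γ → α}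
    (h : ∀ b c, f b ≠ g c) : (inc f)ᵀ * inc g = 0 := by
  rw [incT_mul]
  ext b c
  simp [inc_apply, h b c]

theorem inc_mul_inc [DecidableEq α] [Fintype β] [DecidableEq β] (e : β → α) (f : γ → β) :
    inc e * inc f = inc (e ∘ f) := by
  rw [mul_inc]
  rfl

theorem incT_mul_incT [DecidableEq α] [Fintype β] [DecidableEq β] (e : β → α) (f : γ → β) :
    (inc f)ᵀ * (inc e)ᵀ = (inc (e ∘ f))ᵀ := by
  rw [← Matrix.transpose_mul, inc_mul_inc]

theorem inc_mul_apply_of_mem [DecidableEq α] [Fintype β] {e : β → α} (he : Function.Injective e)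
    (A : Matrix β γ ℂ) (b : β) (c : γ) : (inc e * A) (e b) c = A b c := by
  classical
  simp [Matrix.mul_apply, inc_apply, he.eq_iff]

theorem inc_mul_apply_of_notMem [DecidableEq α] [Fintype β] (e : β → α)
    (A : Matrix β γ ℂ) {a : α} (ha : ∀ b, a ≠ e b) (c : γ) : (inc e * A) a c = 0 := by
  simp [Matrix.mul_apply, inc_apply, ha]

theorem mul_incT_apply_of_mem [DecidableEq α] [Fintype β] {e : β → α} (he : Function.Injective e)
    (A : Matrix γ β ℂ) (c : γ) (b : β) : (A * (inc e)ᵀ) c (e b) = A c b := by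
  classical
  simp [Matrix.mul_apply, inc_apply, he.eq_iff]

theorem mul_incT_apply_of_notMem [DecidableEq α] [Fintype β] (e : β → α)
    (A : Matrix γ β ℂ) (c : γ) {a : α} (ha : ∀ b, a ≠ e b) : (A * (inc e)ᵀ) c a = 0 := by
  simp [Matrix.mul_apply, inc_apply, ha]

theorem inc_mul_incT_equiv [DecidableEq α] [Fintype β] (e : β ≃ α) : inc e * (inc e)ᵀ = 1 := by
  ext a a'
  obtain ⟨b, rfl⟩ := e.surjective a
  rw [inc_mul_apply_of_mem e.injective]
  simp [inc_apply, Matrix.one_apply, eq_comm]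

end inc

section Dep
variable {α β γ : Type} [Fintype α] [DecidableEq α] [Fintype β] [DecidableEq β] [Fintype γ]
  [DecidableEq γ]

/-- A product of `d` layers, interleaved with monomial matrices. -/
def Dep (Lay : Matrix α α ℂ → Prop) : ℕ → Matrix α α ℂ → Prop
  | 0, A => IsMono A
  | d + 1, A => ∃ B L M, Dep Lay d B ∧ Lay L ∧ IsMono M ∧ A = B * L * M

omit [DecidableEq α] in
theorem Dep.mul {Lay : Matrix α α ℂ → Prop} {a b : ℕ} {A B : Matrix α α ℂ} (hA : Dep Lay a A)
    (hB : Dep Lay b B) : Dep Lay (a + b) (A * B) := by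
  induction b generalizing B with
  | zero =>
    cases a with
    | zero => exact IsMono.mul hA hB
    | succ a =>
      obtain ⟨B', L, M, h1, h2, h3, rfl⟩ := hA
      exact ⟨B', L, M * B, h1, h2, h3.mul hB, Matrix.mul_assoc _ _ _⟩
  | succ b ih =>
    obtain ⟨B', L, M, h1, h2, h3, rfl⟩ := hB
    exact ⟨A * B', L, M, ih h1, h2, h3, by simp only [Matrix.mul_assoc]⟩

omit [DecidableEq α] in
theorem Dep.mul_mono {Lay : Matrix α α ℂ → Prop} {a : ℕ} {A B : Matrix α α ℂ} (hA : Dep Lay a A)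
    (hB : IsMono B) : Dep Lay a (A * B) := hA.mul (b := 0) hB

omit [DecidableEq α] in
theorem Dep.mono_mul {Lay : Matrix α α ℂ → Prop} {a : ℕ} {A B : Matrix α α ℂ} (hB : IsMono B)
    (hA : Dep Lay a A) : Dep Lay a (B * A) := by
  have := Dep.mul (a := 0) hB hA
  rwa [zero_add] at this

theorem Dep.layer {Lay : Matrix α α ℂ → Prop} {L : Matrix α α ℂ} (h : Lay L) : Dep Lay 1 L :=
  ⟨1, L, 1, isMono_one, h, isMono_one, by simp⟩

omit [DecidableEq α] in
theorem Dep.bind {Lay Lay' : Matrix α α ℂ → Prop} {c : ℕ} (hL : ∀ L, Lay L → Dep Lay' c L)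
    {d : ℕ} {A : Matrix α α ℂ} (h : Dep Lay d A) : Dep Lay' (d * c) A := by
  induction d generalizing A with
  | zero => rw [zero_mul]; exact h
  | succ d ih =>
    obtain ⟨B, L, M, h1, h2, h3, rfl⟩ := h
    rw [Nat.succ_mul]
    exact ((ih h1).mul (hL L h2)).mul_mono h3

omit [DecidableEq α] [DecidableEq β] in
theorem Dep.map {Lay : Matrix α α ℂ → Prop} {Lay' : Matrix β β ℂ → Prop}
    (Φ : Matrix α α ℂ → Matrix β β ℂ) (hmul : ∀ A B, Φ (A * B) = Φ A * Φ B)
    (hM : ∀ M, IsMono M → IsMono (Φ M)) (hL : ∀ L, Lay L → Lay' (Φ L))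
    {d : ℕ} {A : Matrix α α ℂ} (h : Dep Lay d A) : Dep Lay' d (Φ A) := by
  induction d generalizing A with
  | zero => exact hM _ h
  | succ d ih =>
    obtain ⟨B, L, M, h1, h2, h3, rfl⟩ := h
    exact ⟨Φ B, Φ L, Φ M, ih h1, hL _ h2, hM _ h3, by rw [hmul, hmul]⟩

/-- One layer of disjoint shears. -/
def IsLayer (L : Matrix α α ℂ) : Prop :=
  ∃ (n : ℕ) (f g : Fin n → α) (lam : Fin n → ℂ), Function.Injective f ∧ Function.Injective g ∧
    (∀ p q, f p ≠ g q) ∧ L = 1 + inc g * Matrix.diagonal lam * (inc f)ᵀ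

theorem isLayer_of {f g : β → α} (lam : β → ℂ) (hf : Function.Injective f)
    (hg : Function.Injective g) (h : ∀ p q, f p ≠ g q) :
    IsLayer (1 + inc g * Matrix.diagonal lam * (inc f)ᵀ) := by
  let e := (Fintype.equivFin β).symm
  refine ⟨_, f ∘ e, g ∘ e, lam ∘ e, hf.comp e.injective, hg.comp e.injective,
    fun p q => h _ _, ?_⟩
  have : Matrix.diagonal lam = inc e * Matrix.diagonal (lam ∘ e) * (inc e)ᵀ := by
    ext a b
    obtain ⟨a, rfl⟩ := e.surjective a
    obtain ⟨b, rfl⟩ := e.surjective b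
    rw [mul_incT_apply_of_mem e.injective, inc_mul_apply_of_mem e.injective]
    simp [Matrix.diagonal_apply]
  rw [this, ← inc_mul_inc, ← incT_mul_incT]
  simp only [Matrix.mul_assoc]

theorem isLayer_one : IsLayer (1 : Matrix α α ℂ) :=
  ⟨0, Fin.elim0, Fin.elim0, Fin.elim0, fun a => a.elim0, fun a => a.elim0, fun a => a.elim0, by
    ext a b
    simp [Matrix.mul_apply]⟩

theorem Dep.mono_le {a b : ℕ} {A : Matrix α α ℂ} (h : Dep IsLayer a A) (hab : a ≤ b) :
    Dep IsLayer b A := by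
  induction hab with
  | refl => exact h
  | step _ ih => simpa using ih.mul (Dep.layer isLayer_one)

/-- Extension by the identity along an embedding of index sets. -/
def ext (e : β → α) (A : Matrix β β ℂ) : Matrix α α ℂ := 1 + inc e * (A - 1) * (inc e)ᵀ

theorem ext_mul {e : β → α} (he : Function.Injective e) (A B : Matrix β β ℂ) :
    ext e (A * B) = ext e A * ext e B := by
  have h := incT_mul_inc he
  have : inc e * (A - 1) * (inc e)ᵀ * (inc e * (B - 1) * (inc e)ᵀ) =
      inc e * ((A - 1) * (B - 1)) * (inc e)ᵀ := by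
    calc _ = inc e * (A - 1) * ((inc e)ᵀ * inc e) * (B - 1) * (inc e)ᵀ := by
          simp only [Matrix.mul_assoc]
      _ = _ := by rw [h]; simp only [Matrix.mul_assoc, Matrix.one_mul]
  simp only [ext, Matrix.add_mul, Matrix.mul_add, Matrix.one_mul, Matrix.mul_one, this]
  simp only [Matrix.sub_mul, Matrix.mul_sub, Matrix.one_mul, Matrix.mul_one]
  abel

theorem ext_one (e : β → α) : ext e 1 = 1 := by simp [ext]

theorem IsMono.ext {e : β → α} (he : Function.Injective e) {M : Matrix β β ℂ} (hM : IsMono M) :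
    IsMono (ext e M) := by
  intro a
  by_cases ha : ∃ b, a = e b
  · obtain ⟨b, rfl⟩ := ha
    obtain ⟨i, hi⟩ := hM b
    refine ⟨e i, fun a' ha' => ?_⟩
    by_cases ha2 : ∃ c, a' = e c
    · obtain ⟨c, rfl⟩ := ha2
      have hc : c ≠ i := fun h => ha' (by rw [h])
      rw [P344.ext, Matrix.add_apply, mul_incT_apply_of_mem he, inc_mul_apply_of_mem he,
        Matrix.sub_apply, hi c hc]
      simp [Matrix.one_apply, he.eq_iff]
    · push Not at ha2
      rw [P344.ext, Matrix.add_apply, mul_incT_apply_of_notMem _ _ _ ha2,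
        Matrix.one_apply_ne (ha2 b).symm, add_zero]
  · push Not at ha
    refine ⟨a, fun a' ha' => ?_⟩
    rw [P344.ext, Matrix.add_apply, Matrix.mul_assoc, inc_mul_apply_of_notMem _ _ ha,
      Matrix.one_apply_ne ha'.symm, add_zero]

theorem ext_shear {δ : Type} [Fintype δ] (e : β → α) (f : γ → β) (g : δ → β) (A : Matrix δ γ ℂ) :
    ext e (1 + inc g * A * (inc f)ᵀ) = 1 + inc (e ∘ g) * A * (inc (e ∘ f))ᵀ := by
  rw [ext, add_sub_cancel_left, ← inc_mul_inc, ← incT_mul_incT]
  simp only [Matrix.mul_assoc]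

theorem IsLayer.ext {e : β → α} (he : Function.Injective e) {L : Matrix β β ℂ} (hL : IsLayer L) :
    IsLayer (ext e L) := by
  obtain ⟨n, f, g, lam, hf, hg, h, rfl⟩ := hL
  rw [ext_shear]
  exact ⟨n, e ∘ f, e ∘ g, lam, he.comp hf, he.comp hg, fun p q hpq => h p q (he hpq), rfl⟩

theorem Dep.ext {e : β → α} (he : Function.Injective e) {d : ℕ} {A : Matrix β β ℂ}
    (h : Dep IsLayer d A) : Dep IsLayer d (ext e A) :=
  h.map (P344.ext e) (ext_mul he) (fun _ hM => hM.ext he) (fun _ hL => hL.ext he)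

theorem ext_equiv (e : α ≃ β) (A : Matrix β β ℂ) : ext e.symm A = A.submatrix e e := by
  rw [ext, Matrix.mul_sub, Matrix.sub_mul, Matrix.mul_one, inc_mul_incT_equiv, add_sub_cancel]
  ext a b
  obtain ⟨a, rfl⟩ := e.symm.surjective a
  obtain ⟨b, rfl⟩ := e.symm.surjective b
  rw [mul_incT_apply_of_mem e.symm.injective, inc_mul_apply_of_mem e.symm.injective]
  simp

theorem Dep.submatrix {d : ℕ} {A : Matrix β β ℂ} (h : Dep IsLayer d A) (f : α → β) (e : α ≃ β) :
    Dep IsLayer d (A.submatrix f e) := by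
  have h1 : Dep IsLayer d (A.submatrix e e) := ext_equiv e A ▸ h.ext e.symm.injective
  have h2 : A.submatrix f e = (inc (e.symm ∘ f))ᵀ * A.submatrix e e := by
    rw [incT_mul]
    ext a b
    simp
  rw [h2]
  refine Dep.mono_mul (fun a => ⟨e.symm (f a), fun a' ha' => ?_⟩) h1
  simp [inc_apply, ha']

omit [Fintype α] [Fintype γ] in
theorem one_kron_inc (e : β → α) :
    (1 : Matrix γ γ ℂ) ⊗ₖ inc e = inc (Prod.map id e : γ × β → γ × α) := by
  ext ⟨a, b⟩ ⟨c, d⟩
  simp only [Matrix.kroneckerMap_apply, Matrix.one_apply, inc_apply, Prod.map, id, Prod.mk.injEq]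
  by_cases h1 : a = c <;> by_cases h2 : b = e d <;> simp [h1, h2]

theorem Dep.one_kron {d : ℕ} {A : Matrix α α ℂ} (h : Dep IsLayer d A) :
    Dep IsLayer d ((1 : Matrix γ γ ℂ) ⊗ₖ A) := by
  refine h.map (fun A => (1 : Matrix γ γ ℂ) ⊗ₖ A) (fun A B => ?_) (fun M hM => ?_) (fun L hL => ?_)
  · rw [← Matrix.mul_kronecker_mul, Matrix.one_mul]
  · rintro ⟨c, a⟩
    obtain ⟨i, hi⟩ := hM a
    refine ⟨(c, i), ?_⟩
    rintro ⟨c', a'⟩ hne
    by_cases h1 : c = c'
    · subst h1
      have : a' ≠ i := fun h => hne (by rw [h])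
      simp [hi a' this]
    · simp [h1]
  · obtain ⟨n, f, g, lam, hf, hg, h, rfl⟩ := hL
    have e : (1 : Matrix γ γ ℂ) ⊗ₖ (1 + inc g * Matrix.diagonal lam * (inc f)ᵀ) =
        1 + inc (Prod.map id g : γ × Fin n → γ × α) * 
          (Matrix.diagonal (fun p => lam p.2) : Matrix (γ × Fin n) (γ × Fin n) ℂ) *
          (inc (Prod.map id f : γ × Fin n → γ × α))ᵀ := by
      rw [Matrix.kronecker_add, Matrix.one_kronecker_one, ← one_kron_inc, ← one_kron_inc,
        ← Matrix.kroneckerMap_transpose, Matrix.transpose_one]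
      congr 1
      have : (Matrix.diagonal fun p : γ × Fin n => lam p.2) =
          (1 : Matrix γ γ ℂ) ⊗ₖ Matrix.diagonal lam := by
        rw [← Matrix.diagonal_one, Matrix.diagonal_kronecker_diagonal]
        simp
      rw [this, ← Matrix.mul_kronecker_mul, ← Matrix.mul_kronecker_mul]
      simp
    rw [e]
    exact isLayer_of _ (Function.Injective.prodMap Function.injective_id hf)
      (Function.Injective.prodMap Function.injective_id hg)
      (fun p q hpq => h p.2 q.2 (congrArg Prod.snd hpq))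

end Dep

end Vale.Agent.P344
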