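import Vale.Agent.P344.Layers

/-!
Fourier matrices: the radix two factorization, orthogonality and Toeplitz matrices.
-/

namespace Vale.Agent.P344

open Finset Matrix Kronecker Complex

/-- The Fourier matrix of a root of unity. -/
def dft (n : ℕ) (ζ : ℂ) : Matrix (Fin n) (Fin n) ℂ := Matrix.of fun j k => ζ ^ ((j : ℕ) * (k : ℕ))

theorem dft_apply (n : ℕ) (ζ : ℂ) (j k : Fin n) : dft n ζ j k = ζ ^ ((j : ℕ) * (k : ℕ)) := rfl

theorem dep_butterfly : Dep IsLayer 2 (dft 2 (-1)) := by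
  have h1 : IsLayer (1 + inc (fun _ : Fin 1 => (1 : Fin 2)) *
      (Matrix.diagonal (fun _ => 1) : Matrix (Fin 1) (Fin 1) ℂ) *
      (inc fun _ : Fin 1 => (0 : Fin 2))ᵀ) :=
    isLayer_of _ (Function.injective_of_subsingleton _) (Function.injective_of_subsingleton _)
      (by simp)
  have h2 : IsLayer (1 + inc (fun _ : Fin 1 => (0 : Fin 2)) *
      (Matrix.diagonal (fun _ => 1) : Matrix (Fin 1) (Fin 1) ℂ) *
      (inc fun _ : Fin 1 => (1 : Fin 2))ᵀ) :=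
    isLayer_of _ (Function.injective_of_subsingleton _) (Function.injective_of_subsingleton _)
      (by simp)
  have h := ((Dep.layer h1).mul_mono (isMono_diagonal ![1, -2])).mul (Dep.layer h2)
  convert h using 1
  ext i j
  fin_cases i <;> fin_cases j <;>
    simp [dft_apply, Matrix.mul_apply, inc_apply, Fin.sum_univ_two, Matrix.one_apply,
      Matrix.diagonal_apply] <;> norm_num

theorem dep_dft_double {t d : ℕ} {ζ : ℂ} (hζ : ζ ^ t = -1) (h : Dep IsLayer d (dft t (ζ ^ 2))) :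
    Dep IsLayer (2 + d) (dft (2 * t) ζ) := by
  let eo : Fin 2 × Fin t ≃ Fin (2 * t) := finProdFinEquiv
  let ei : Fin 2 × Fin t ≃ Fin (2 * t) :=
    (Equiv.prodComm _ _).trans (finProdFinEquiv.trans (finCongr (mul_comm t 2)))
  have h1 := ((dep_butterfly.one_kron (γ := Fin t)).submatrix Prod.swap (Equiv.prodComm _ _)).mul_mono
    (isMono_diagonal fun p : Fin 2 × Fin t => ζ ^ ((p.1 : ℕ) * (p.2 : ℕ)))
  have h2 := (h1.mul (h.one_kron (γ := Fin 2))).submatrix eo.symm ei.symm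
  convert h2 using 1
  ext j k
  obtain ⟨⟨c, j⟩, rfl⟩ := eo.surjective j
  obtain ⟨⟨b, k⟩, rfl⟩ := ei.surjective k
  have e1 : ((eo (c, j) : Fin (2 * t)) : ℕ) = j + t * c := by simp [eo]
  have e2 : ((ei (b, k) : Fin (2 * t)) : ℕ) = b + 2 * k := by simp [ei]
  rw [dft_apply, e1, e2, Matrix.submatrix_apply, Equiv.symm_apply_apply, Equiv.symm_apply_apply,
    Matrix.mul_apply, Finset.sum_eq_single (b, j)]
  · simp only [Matrix.mul_diagonal, Matrix.submatrix_apply, Matrix.kroneckerMap_apply, Prod.swap,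
      Equiv.prodComm_apply, Matrix.one_apply_eq, one_mul, dft_apply]
    have h3 : ζ ^ (t * (2 * (c * k))) = 1 := by
      rw [pow_mul, hζ, pow_mul]; simp
    rw [← hζ, ← pow_mul, ← pow_mul, ← pow_add, ← pow_add, ← mul_one (ζ ^ (_ + _)), ← h3, ← pow_add]
    congr 1
    ring
  · rintro ⟨b', j'⟩ _ hne
    simp only [Matrix.mul_diagonal, Matrix.submatrix_apply, Matrix.kroneckerMap_apply, Prod.swap,
      Equiv.prodComm_apply, Matrix.one_apply]
    by_cases hb : b' = b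
    · have : j ≠ j' := fun h => hne (by rw [hb, h])
      simp [this]
    · simp [hb]
  · simp

theorem dep_fft (e : ℕ) : ∀ {ζ : ℂ}, IsPrimitiveRoot ζ (2 ^ e) →
    Dep IsLayer (2 * e) (dft (2 ^ e) ζ) := by
  induction e with
  | zero =>
    intro ζ _
    exact fun j => ⟨j, fun i hi => absurd (Fin.ext (by have := i.2; have := j.2; omega)) hi⟩
  | succ e ih =>
    intro ζ hζ
    have h1 : IsPrimitiveRoot (ζ ^ 2) (2 ^ e) := hζ.pow (by positivity) (pow_succ' 2 e)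
    have h2 : IsPrimitiveRoot (ζ ^ 2 ^ e) 2 := hζ.pow (by positivity) (pow_succ 2 e)
    have h3 := dep_dft_double h2.eq_neg_one_of_two_right (ih h1)
    rw [pow_succ', show 2 * (e + 1) = 2 + 2 * e by ring]
    exact h3

theorem sum_zpow_eq_zero {t : ℕ} {ζ : ℂ} (hζ : IsPrimitiveRoot ζ t) {u : ℤ}
    (hu : ¬ (t : ℤ) ∣ u) : ∑ l : Fin t, (ζ ^ (l : ℕ)) ^ u = 0 := by
  have h1 : ζ ^ u ≠ 1 := fun h => hu ((hζ.zpow_eq_one_iff_dvd u).mp h)
  have h2 : (ζ ^ u) ^ t = 1 := by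
    rw [← _root_.zpow_natCast, ← _root_.zpow_mul, mul_comm, _root_.zpow_mul, _root_.zpow_natCast,
      hζ.pow_eq_one, _root_.one_zpow]
  have h3 : ∀ l : Fin t, (ζ ^ (l : ℕ)) ^ u = (ζ ^ u) ^ (l : ℕ) := fun l => by
    rw [← _root_.zpow_natCast, ← _root_.zpow_mul, mul_comm, _root_.zpow_mul, _root_.zpow_natCast]
  simp only [h3]
  rw [Fin.sum_univ_eq_sum_range (fun l => (ζ ^ u) ^ l) t, geom_sum_eq h1, h2, sub_self, zero_div]

theorem dft_inv_mul {t : ℕ} {ζ : ℂ} (hζ : IsPrimitiveRoot ζ t) :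
    dft t ζ⁻¹ * dft t ζ = (t : ℂ) • (1 : Matrix (Fin t) (Fin t) ℂ) := by
  ext j k
  have h0 : ζ ≠ 0 := hζ.ne_zero (by have := j.2; omega)
  have h1 : ∀ l : Fin t, dft t ζ⁻¹ j l * dft t ζ l k = (ζ ^ (l : ℕ)) ^ ((k : ℤ) - j) := fun l => by
    rw [dft_apply, dft_apply, zpow_sub₀ (pow_ne_zero _ h0), zpow_natCast, zpow_natCast, ← pow_mul,
      ← pow_mul, inv_pow, mul_comm (j : ℕ), div_eq_mul_inv, mul_comm]
  rw [Matrix.mul_apply]
  simp only [h1]
  by_cases hjk : j = k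
  · subst hjk
    simp
  · rw [sum_zpow_eq_zero hζ, Matrix.smul_apply, Matrix.one_apply_ne hjk, smul_zero]
    intro hd
    have h2 : (k : ℤ) - j = 0 := Int.eq_zero_of_abs_lt_dvd hd (by
      have := j.2; have := k.2
      rw [abs_lt]; constructor <;> omega)
    exact hjk (Fin.ext (by omega))

theorem toeplitz {Λ : Type} [Fintype Λ] [Nonempty Λ] (θ : Λ → ℂ) (hθ : ∀ l, θ l ≠ 0) (s : ℕ)
    (horth : ∀ u : ℤ, u ≠ 0 → |u| < 2 * s → ∑ l, θ l ^ u = 0) (τ : ℤ → ℂ) :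
    ∃ d : Λ → ℂ, ∀ j k : Fin s,
      ∑ l, (θ l)⁻¹ ^ (j : ℕ) * d l * θ l ^ (k : ℕ) = τ ((j : ℤ) - k) := by
  have hN : (Fintype.card Λ : ℂ) ≠ 0 := by exact_mod_cast Fintype.card_ne_zero
  refine ⟨fun l => (Fintype.card Λ : ℂ)⁻¹ * ∑ u ∈ Finset.Ioo (-(s : ℤ)) s, τ u * θ l ^ u,
    fun j k => ?_⟩
  have h1 : ∀ l, (θ l)⁻¹ ^ (j : ℕ) * ((Fintype.card Λ : ℂ)⁻¹ *
      ∑ u ∈ Finset.Ioo (-(s : ℤ)) s, τ u * θ l ^ u) * θ l ^ (k : ℕ) =
      ∑ u ∈ Finset.Ioo (-(s : ℤ)) s, (Fintype.card Λ : ℂ)⁻¹ * τ u * θ l ^ (u - ((j : ℤ) - k)) := by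
    intro l
    rw [Finset.mul_sum, Finset.mul_sum, Finset.sum_mul]
    refine Finset.sum_congr rfl fun u _ => ?_
    rw [zpow_sub₀ (hθ l), zpow_sub₀ (hθ l), zpow_natCast, zpow_natCast, inv_pow]
    field_simp [hθ l]
  simp only [h1]
  have hj := j.2
  have hk := k.2
  rw [Finset.sum_comm, Finset.sum_eq_single ((j : ℤ) - k)]
  · simp only [sub_self, zpow_zero, mul_one, Finset.sum_const, Finset.card_univ, nsmul_eq_mul]
    field_simp
  · intro u hu hne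
    rw [← Finset.mul_sum, horth _ (sub_ne_zero.mpr hne), mul_zero]
    rw [Finset.mem_Ioo] at hu
    rw [abs_lt]; constructor <;> omega
  · intro h
    exact absurd (Finset.mem_Ioo.mpr (by constructor <;> omega)) h

theorem chirp (ω : ℂ) (hω : ω ≠ 0) (j k : ℕ) :
    (ω * ω) ^ (j * k) = ω ^ (j ^ 2) * ω ^ (-((j : ℤ) - k) ^ 2) * ω ^ (k ^ 2) := by
  rw [← zpow_natCast ω (j ^ 2), ← zpow_natCast ω (k ^ 2), ← zpow_add₀ hω, ← zpow_add₀ hω,
    ← pow_two, ← pow_mul, ← zpow_natCast]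
  congr 1
  push_cast
  ring

end Vale.Agent.P344
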