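import Vale.Agent.P344.FFT

/-!
Six copies of a Fourier matrix can be applied in place with logarithmic depth.
-/

namespace Vale.Agent.P344

open Finset Matrix Kronecker Complex

section
variable {α β γ δ : Type} [Fintype α] [DecidableEq α] [Fintype β] [DecidableEq β] [Fintype γ]
  [DecidableEq γ] [Fintype δ] [DecidableEq δ]

/-- A block placed at given rows and columns. -/
def emb (y : β → α) (A : Matrix β γ ℂ) (x : γ → α) : Matrix α α ℂ := inc y * A * (inc x)ᵀ

theorem emb_mul_emb (y : β → α) (A : Matrix β γ ℂ) {z : γ → α} (hz : Function.Injective z)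
    (B : Matrix γ δ ℂ) (x : δ → α) : emb y A z * emb z B x = emb y (A * B) x := by
  calc _ = inc y * A * ((inc z)ᵀ * inc z) * B * (inc x)ᵀ := by simp only [emb, Matrix.mul_assoc]
    _ = _ := by rw [incT_mul_inc hz]; simp only [emb, Matrix.mul_assoc, Matrix.one_mul]

theorem emb_mul_emb_disj {ε : Type} [Fintype ε] (y : β → α) (A : Matrix β γ ℂ) {z : γ → α}
    {z' : ε → α} (h : ∀ p q, z p ≠ z' q) (B : Matrix ε δ ℂ) (x : δ → α) :
    emb y A z * emb z' B x = 0 := by
  calc _ = inc y * A * ((inc z)ᵀ * inc z') * B * (inc x)ᵀ := by simp only [emb, Matrix.mul_assoc]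
    _ = _ := by rw [incT_mul_inc_disj h]; simp

theorem emb_neg (y : β → α) (A : Matrix β γ ℂ) (x : γ → α) : emb y (-A) x = -emb y A x := by
  simp [emb]

theorem emb_add (y : β → α) (A B : Matrix β γ ℂ) (x : γ → α) :
    emb y (A + B) x = emb y A x + emb y B x := by
  simp [emb, Matrix.mul_add, Matrix.add_mul]

theorem emb_sub (y : β → α) (A B : Matrix β γ ℂ) (x : γ → α) :
    emb y (A - B) x = emb y A x - emb y B x := by
  simp [emb, Matrix.mul_sub, Matrix.sub_mul]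

theorem ext_eq_emb (z : γ → α) (G : Matrix γ γ ℂ) : ext z G = 1 + emb z (G - 1) z := rfl

theorem dep_comm {a b : ℕ} {A B : Matrix α α ℂ} (h1 : Dep IsLayer a (1 + A))
    (h2 : Dep IsLayer b (1 + B)) (h3 : Dep IsLayer a (1 + -A)) (h4 : Dep IsLayer b (1 + -B))
    (hAA : A * A = 0) (hBB : B * B = 0) (hBA : B * A = 0) :
    Dep IsLayer (a + b + a + b) (1 + A * B) := by
  have h := ((h1.mul h2).mul h3).mul h4
  have e1 : (1 + B) * (1 + -A) = 1 + B - A := by
    simp only [Matrix.add_mul, Matrix.mul_add, Matrix.one_mul, Matrix.mul_one, Matrix.mul_neg, hBA]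
    abel
  have e2 : (1 + A) * (1 + B - A) = 1 + B + A * B := by
    simp only [Matrix.add_mul, Matrix.mul_add, Matrix.mul_sub, Matrix.one_mul, Matrix.mul_one, hAA]
    abel
  have e3 : (1 + B + A * B) * (1 + -B) = 1 + A * B := by
    simp only [Matrix.add_mul, Matrix.mul_add, Matrix.one_mul, Matrix.mul_one, Matrix.mul_neg, hBB,
      Matrix.mul_assoc, Matrix.mul_zero]
    abel
  rwa [Matrix.mul_assoc (1 + A), e1, e2, e3] at h

theorem dep_conj {d : ℕ} {G Gi : Matrix γ γ ℂ} (hG : Dep IsLayer d G) (hGi : Dep IsLayer d Gi)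
    (hinv : Gi * G = 1) {y : β → α} {z : γ → α} (hz : Function.Injective z)
    (hzy : ∀ p q, z p ≠ y q) {Q : Matrix β γ ℂ} (hQ : IsLayer (1 + emb y Q z)) :
    Dep IsLayer (d + 1 + d) (1 + emb y (Q * G) z) := by
  have h := ((hGi.ext hz).mul (Dep.layer hQ)).mul (hG.ext hz)
  have e1 : ext z Gi * emb y Q z = emb y Q z := by
    rw [ext_eq_emb, Matrix.add_mul, Matrix.one_mul, emb_mul_emb_disj _ _ hzy, add_zero]
  have e2 : emb y Q z * ext z G = emb y (Q * G) z := by
    rw [ext_eq_emb, Matrix.mul_add, Matrix.mul_one, emb_mul_emb _ _ hz, ← emb_add]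
    congr 1
    rw [Matrix.mul_sub, Matrix.mul_one, add_sub_cancel]
  rwa [Matrix.mul_add, Matrix.mul_one, e1, Matrix.add_mul, e2, ← ext_mul hz, hinv, ext_one] at h

end

section toeplitz
variable {α : Type} [Fintype α] [DecidableEq α]

theorem dep_toeplitz_shear {s e : ℕ} (hs : 2 * s ≤ 2 ^ e) (a b : Fin s → ℂ) (τ : ℤ → ℂ)
    {x y : Fin s → α} {z : Fin (2 ^ e) → α} (hx : Function.Injective x)
    (hy : Function.Injective y) (hz : Function.Injective z) (hxy : ∀ p q, x p ≠ y q)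
    (hxz : ∀ p q, x p ≠ z q) (hzy : ∀ p q, z p ≠ y q) :
    Dep IsLayer (16 * e + 5)
      (1 + emb y (Matrix.of fun j k : Fin s => a j * τ ((j : ℤ) - k) * b k) x) := by
  have ht : 2 ^ e ≠ 0 := by positivity
  have ht' : ((2 ^ e : ℕ) : ℂ) ≠ 0 := by exact_mod_cast ht
  have hζ := Complex.isPrimitiveRoot_exp (2 ^ e) ht
  set ζ := Complex.exp (2 * Real.pi * I / (2 ^ e : ℕ)) with hζdef
  have hζ0 : ζ ≠ 0 := hζ.ne_zero ht
  have : Nonempty (Fin (2 ^ e)) := ⟨⟨0, by positivity⟩⟩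
  obtain ⟨d, hd⟩ := toeplitz (fun l : Fin (2 ^ e) => ζ ^ (l : ℕ)) (fun l => pow_ne_zero _ hζ0) s
    (fun u hu hlt => sum_zpow_eq_zero hζ fun hdvd => hu (Int.eq_zero_of_abs_lt_dvd hdvd (by
      have : ((2 * s : ℕ) : ℤ) ≤ ((2 ^ e : ℕ) : ℤ) := by exact_mod_cast hs
      push_cast at this ⊢
      omega))) τ
  obtain ⟨μ, hμ⟩ := Infinite.exists_notMem_finset (Finset.univ.image fun l => -d l)
  have hμ' : ∀ l, d l + μ ≠ 0 := fun l h =>
    hμ (Finset.mem_image.mpr ⟨l, Finset.mem_univ _, by linear_combination -h⟩)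
  set F := dft (2 ^ e) ζ with hF
  set Fi := dft (2 ^ e) ζ⁻¹ with hFi
  have hFF : Fi * F = ((2 ^ e : ℕ) : ℂ) • 1 := dft_inv_mul hζ
  have hFF' : F * Fi = ((2 ^ e : ℕ) : ℂ) • 1 := by
    have := dft_inv_mul hζ.inv
    rwa [inv_inv] at this
  have hdep : ∀ c : Fin (2 ^ e) → ℂ, Dep IsLayer (4 * e) (Fi * Matrix.diagonal c * F) := fun c => by
    have := ((dep_fft e hζ.inv).mul_mono (isMono_diagonal c)).mul (dep_fft e hζ)
    rwa [show 2 * e + 2 * e = 4 * e by ring] at this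
  set G := Fi * Matrix.diagonal (fun l => d l + μ) * F with hG
  have hinv : (Fi * Matrix.diagonal (fun l => (((2 ^ e : ℕ) : ℂ) ^ 2 * (d l + μ))⁻¹) * F) * G = 1 := by
    calc _ = Fi * (Matrix.diagonal (fun l => (((2 ^ e : ℕ) : ℂ) ^ 2 * (d l + μ))⁻¹) * (F * Fi) *
          Matrix.diagonal (fun l => d l + μ)) * F := by simp only [hG, Matrix.mul_assoc]
      _ = Fi * (((2 ^ e : ℕ) : ℂ)⁻¹ • (1 : Matrix (Fin (2 ^ e)) (Fin (2 ^ e)) ℂ)) * F := by
          congr 2
          rw [hFF', Matrix.mul_smul, Matrix.mul_one, Matrix.smul_mul, Matrix.diagonal_mul_diagonal]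
          ext i j
          by_cases hij : i = j
          · subst hij
            simp only [Matrix.smul_apply, Matrix.diagonal_apply_eq, Matrix.one_apply_eq,
              smul_eq_mul]
            field_simp [hμ' i]
          · simp [hij]
      _ = 1 := by
          rw [Matrix.mul_smul, Matrix.mul_one, Matrix.smul_mul, hFF, smul_smul,
            inv_mul_cancel₀ ht', one_smul]
  let E : Fin s → Fin (2 ^ e) := Fin.castLE (by omega)
  have hE : Function.Injective E := Fin.castLE_injective _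
  have hA : ∀ c : Fin s → ℂ, Dep IsLayer (4 * e + 1 + 4 * e)
      (1 + emb y ((Matrix.diagonal c : Matrix (Fin s) (Fin s) ℂ) * (inc E)ᵀ * G) z) := fun c => by
    refine dep_conj (hdep _) (hdep _) hinv hz hzy ?_
    have := isLayer_of c (hz.comp hE) hy (fun p q => hzy _ _)
    rwa [← incT_mul_incT, ← Matrix.mul_assoc, Matrix.mul_assoc (inc y)] at this
  have hB : ∀ c : Fin s → ℂ, Dep IsLayer 1
      (1 + emb z (inc E * (Matrix.diagonal c : Matrix (Fin s) (Fin s) ℂ)) x) := fun c => by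
    refine Dep.layer ?_
    have := isLayer_of c hx (hz.comp hE) (fun p q => hxz _ _)
    rwa [← inc_mul_inc, Matrix.mul_assoc (inc z)] at this
  have h1 := dep_comm (hA a) (hB b)
    (by
      have := hA (fun i => -a i)
      rwa [← Matrix.diagonal_neg, Matrix.neg_mul, Matrix.neg_mul, emb_neg] at this)
    (by
      have := hB (fun i => -b i)
      rwa [← Matrix.diagonal_neg, Matrix.mul_neg, emb_neg] at this)
    (emb_mul_emb_disj _ _ hzy _ _) (emb_mul_emb_disj _ _ hxz _ _) (emb_mul_emb_disj _ _ hxy _ _)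
  rw [emb_mul_emb _ _ hz] at h1
  have h2 : Dep IsLayer 1 (1 + emb y (Matrix.diagonal
      (fun j => -(a j * (μ * ((2 ^ e : ℕ) : ℂ)) * b j)) : Matrix (Fin s) (Fin s) ℂ) x) :=
    Dep.layer (isLayer_of _ hx hy hxy)
  have h3 := h1.mul h2
  rw [Matrix.add_mul, Matrix.mul_add, Matrix.mul_add, Matrix.one_mul, Matrix.one_mul,
    Matrix.mul_one, emb_mul_emb_disj _ _ hxy, add_zero, add_assoc (1 : Matrix α α ℂ), ← emb_add,
    add_comm (Matrix.diagonal _)] at h3
  rw [show 16 * e + 5 = 4 * e + 1 + 4 * e + 1 + (4 * e + 1 + 4 * e) + 1 + 1 by ring]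
  convert h3 using 3
  ext j k
  have hGE : G (E j) (E k) = τ ((j : ℤ) - k) + μ * (((2 ^ e : ℕ) : ℂ) * if j = k then 1 else 0) := by
    have e1 : G = Fi * Matrix.diagonal d * F + μ • (Fi * F) := by
      rw [hG, ← Matrix.smul_mul, ← Matrix.add_mul]
      congr 1
      ext i l
      simp only [Matrix.mul_diagonal, Matrix.add_apply, Matrix.smul_apply, smul_eq_mul]
      ring
    rw [e1, hFF, Matrix.add_apply, ← hd j k, Matrix.mul_apply]
    simp only [Matrix.mul_diagonal, Matrix.smul_apply, smul_eq_mul, Matrix.one_apply, hE.eq_iff,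
      hF, hFi, dft_apply]
    congr 1
    refine Finset.sum_congr rfl fun l _ => ?_
    rw [← inv_pow, ← pow_mul, ← pow_mul, mul_comm (l : ℕ) j]
    rfl
  rw [← Matrix.mul_assoc, Matrix.add_apply, Matrix.mul_diagonal, mul_inc, Matrix.submatrix_apply,
    Matrix.mul_assoc, Matrix.diagonal_mul, incT_mul, Matrix.submatrix_apply, id, id, hGE,
    Matrix.of_apply, Matrix.diagonal_apply]
  split_ifs with hjk
  · subst hjk; ring
  · ring

theorem dep_dft_shear {s e : ℕ} (hs : 2 * s ≤ 2 ^ e) {ζ : ℂ} (hζ : ζ ≠ 0) (c : ℂ)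
    {x y : Fin s → α} {z : Fin (2 ^ e) → α} (hx : Function.Injective x)
    (hy : Function.Injective y) (hz : Function.Injective z) (hxy : ∀ p q, x p ≠ y q)
    (hxz : ∀ p q, x p ≠ z q) (hzy : ∀ p q, z p ≠ y q) :
    Dep IsLayer (16 * e + 5) (1 + emb y (c • dft s ζ) x) := by
  obtain ⟨ω, rfl⟩ := IsAlgClosed.exists_eq_mul_self ζ
  have hω : ω ≠ 0 := left_ne_zero_of_mul hζ
  have := dep_toeplitz_shear hs (fun j : Fin s => c * ω ^ ((j : ℕ) ^ 2))
    (fun k : Fin s => ω ^ ((k : ℕ) ^ 2)) (fun u => ω ^ (-u ^ 2)) hx hy hz hxy hxz hzy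
  convert this using 3
  ext j k
  rw [Matrix.smul_apply, dft_apply, chirp ω hω, Matrix.of_apply, smul_eq_mul]
  ring

theorem dep_pair {s e : ℕ} (hs : 2 * s ≤ 2 ^ e) (hs0 : s ≠ 0) {ζ : ℂ} (hζ : IsPrimitiveRoot ζ s)
    {w : Fin s ⊕ Fin s → α} {z : Fin (2 ^ e) → α} (hw : Function.Injective w)
    (hz : Function.Injective z) (hwz : ∀ p q, w p ≠ z q) :
    Dep IsLayer (3 * (16 * e + 5)) (ext w (Matrix.fromBlocks (dft s ζ) 0 0 (dft s ζ))) := by
  have : NeZero s := ⟨hs0⟩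
  have hζ0 : ζ ≠ 0 := hζ.ne_zero hs0
  have hs' : (s : ℂ) ≠ 0 := by exact_mod_cast hs0
  have hx : Function.Injective (w ∘ Sum.inl) := hw.comp Sum.inl_injective
  have hy : Function.Injective (w ∘ Sum.inr) := hw.comp Sum.inr_injective
  have hxy : ∀ p q, (w ∘ Sum.inl) p ≠ (w ∘ Sum.inr) q := fun p q h => Sum.inl_ne_inr (hw h)
  have e1 : ∀ A : Matrix (Fin s) (Fin s) ℂ,
      1 + emb (w ∘ Sum.inr) A (w ∘ Sum.inl) = ext w (Matrix.fromBlocks 1 0 A 1) := fun A => by
    rw [emb, ← ext_shear]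
    congr 1
    ext (i | i) (j | j) <;> simp [Matrix.mul_apply, inc_apply, Matrix.one_apply]
  have e2 : ∀ A : Matrix (Fin s) (Fin s) ℂ,
      1 + emb (w ∘ Sum.inl) A (w ∘ Sum.inr) = ext w (Matrix.fromBlocks 1 A 0 1) := fun A => by
    rw [emb, ← ext_shear]
    congr 1
    ext (i | i) (j | j) <;> simp [Matrix.mul_apply, inc_apply, Matrix.one_apply]
  have h1 := dep_dft_shear hs hζ0 1 hx hy hz hxy (fun p q => hwz _ _) (fun p q => (hwz _ _).symm)
  have h2 := dep_dft_shear hs (inv_ne_zero hζ0) (-(s : ℂ)⁻¹) hy hx hz (fun p q => (hxy _ _).symm)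
    (fun p q => hwz _ _) (fun p q => (hwz _ _).symm)
  rw [one_smul, e1] at h1
  rw [e2] at h2
  have hFF := dft_inv_mul hζ
  have hFF' := dft_inv_mul hζ.inv
  rw [inv_inv] at hFF'
  let N : Matrix (Fin s) (Fin s) ℂ := (-(s : ℂ)) • (inc fun j : Fin s => -j)ᵀ
  have hN : N * (-(s : ℂ)⁻¹ • dft s ζ⁻¹) = dft s ζ := by
    simp only [N, Matrix.smul_mul, Matrix.mul_smul, smul_smul, incT_mul]
    rw [neg_mul_neg, inv_mul_cancel₀ hs', one_smul]
    ext j k
    rw [Matrix.submatrix_apply, dft_apply, dft_apply, id, pow_mul, pow_mul]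
    congr 1
    have h3 : s ∣ ((-j : Fin s) : ℕ) + j := by
      have h4 := Fin.val_add (-j) j
      rw [neg_add_cancel, Fin.val_zero] at h4
      exact Nat.dvd_of_mod_eq_zero h4.symm
    have h4 := (hζ.pow_eq_one_iff_dvd _).mpr h3
    rw [pow_add] at h4
    rw [inv_pow]
    exact (eq_inv_of_mul_eq_one_right h4).symm
  have hM : IsMono (Matrix.fromBlocks 0 1 N 0 :
      Matrix (Fin s ⊕ Fin s) (Fin s ⊕ Fin s) ℂ) := by
    rintro (i | i)
    · refine ⟨Sum.inr i, ?_⟩
      rintro (j | j) hj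
      · simp
      · have : i ≠ j := fun h => hj (by rw [h])
        simp [this]
    · refine ⟨Sum.inl (-i), ?_⟩
      rintro (j | j) hj
      · have : j ≠ -i := fun h => hj (by rw [h])
        simp [N, inc_apply, this]
      · simp
  have h3 := Dep.mono_mul (hM.ext hw) ((h1.mul h2).mul h1)
  rw [← ext_mul hw, ← ext_mul hw, ← ext_mul hw] at h3
  rw [show 3 * (16 * e + 5) = 16 * e + 5 + (16 * e + 5) + (16 * e + 5) by ring]
  convert h3 using 2
  have h5 : dft s ζ * (-(s : ℂ)⁻¹ • dft s ζ⁻¹) = -1 := by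
    rw [Matrix.mul_smul, hFF', smul_smul, neg_mul, inv_mul_cancel₀ hs', neg_one_smul]
  have h6 : (-(s : ℂ)⁻¹ • dft s ζ⁻¹) * dft s ζ = -1 := by
    rw [Matrix.smul_mul, hFF, smul_smul, neg_mul, inv_mul_cancel₀ hs', neg_one_smul]
  simp only [Matrix.fromBlocks_multiply, Matrix.mul_one, Matrix.one_mul, Matrix.mul_zero,
    Matrix.zero_mul, add_zero, zero_add, h5, h6, hN, neg_add_cancel, add_neg_cancel]

end toeplitz

theorem ext_block {β γ : Type} [Fintype β] [DecidableEq β] [Fintype γ] [DecidableEq γ] (c : γ)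
    (A : Matrix β β ℂ) :
    ext (fun p : β => (p, c)) A = Matrix.blockDiagonal fun c' => if c' = c then A else 1 := by
  have hinj : Function.Injective fun p : β => (p, c) := fun p q h => (Prod.mk.inj h).1
  ext ⟨p, a⟩ ⟨q, b⟩
  rw [ext, Matrix.add_apply, Matrix.blockDiagonal_apply]
  by_cases ha : a = c
  · subst ha
    by_cases hb : b = a
    · subst hb
      rw [mul_incT_apply_of_mem hinj, inc_mul_apply_of_mem hinj]
      simp [Matrix.one_apply]
    · rw [mul_incT_apply_of_notMem _ _ _ (fun r h => hb (Prod.mk.inj h).2)]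
      simp [Matrix.one_apply, Ne.symm hb]
  · rw [Matrix.mul_assoc, inc_mul_apply_of_notMem _ _ (fun r h => ha (Prod.mk.inj h).2)]
    by_cases hab : a = b
    · subst hab
      simp [Matrix.one_apply, ha]
    · simp [Matrix.one_apply, hab]

theorem dep_six {s e : ℕ} (hs : 2 * s ≤ 2 ^ e) (hs' : 2 ^ e ≤ 4 * s) {ζ : ℂ}
    (hζ : IsPrimitiveRoot ζ s) :
    Dep IsLayer (9 * (16 * e + 5)) ((1 : Matrix (Bool × Fin 3) (Bool × Fin 3) ℂ) ⊗ₖ dft s ζ) := by
  have hs0 : s ≠ 0 := by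
    have : 0 < 2 ^ e := by positivity
    omega
  have h1 : ∀ c : Fin 3, Dep IsLayer (3 * (16 * e + 5)) (Matrix.blockDiagonal
      fun c' => if c' = c then Matrix.fromBlocks (dft s ζ) 0 0 (dft s ζ) else 1) := fun c => by
    obtain ⟨z⟩ : Nonempty (Fin (2 ^ e) ↪ (Fin s ⊕ Fin s) × {c' : Fin 3 // c' ≠ c}) :=
      Function.Embedding.nonempty_of_card_le (by simp [Fintype.card_subtype_compl]; omega)
    rw [← ext_block]
    refine dep_pair hs hs0 hζ (z := fun l => ((z l).1, (z l).2.1))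
      (fun p q h => (Prod.mk.inj h).1) (fun p q h => z.injective ?_)
      (fun p q h => (z q).2.2 (Prod.mk.inj h).2.symm)
    exact Prod.ext (Prod.mk.inj h).1 (Subtype.ext (Prod.mk.inj h).2)
  have h2 := ((h1 0).mul (h1 1)).mul (h1 2)
  rw [← Matrix.blockDiagonal_mul, ← Matrix.blockDiagonal_mul] at h2
  let g : (Bool × Fin 3) × Fin s ≃ (Fin s ⊕ Fin s) × Fin 3 :=
    { toFun := fun p => (Equiv.boolProdEquivSum (Fin s) (p.1.1, p.2), p.1.2)
      invFun := fun p => ((((Equiv.boolProdEquivSum (Fin s)).symm p.1).1, p.2),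
        ((Equiv.boolProdEquivSum (Fin s)).symm p.1).2)
      left_inv := fun p => by rcases p with ⟨⟨_ | _, _⟩, _⟩ <;> simp
      right_inv := fun p => by rcases p with ⟨_ | _, _⟩ <;> simp }
  have h3 := h2.submatrix g g
  rw [show 9 * (16 * e + 5) = 3 * (16 * e + 5) + 3 * (16 * e + 5) + 3 * (16 * e + 5) by ring]
  convert h3 using 1
  ext ⟨⟨a, c⟩, j⟩ ⟨⟨b, c'⟩, k⟩
  simp only [Matrix.kroneckerMap_apply, Matrix.submatrix_apply, Matrix.blockDiagonal_apply, g,
    Equiv.coe_fn_mk, Matrix.one_apply, Prod.mk.injEq]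
  by_cases hc : c = c'
  · subst hc
    fin_cases c <;> cases a <;> cases b <;> simp
  · simp [hc]

end Vale.Agent.P344
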