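import Vale.Agent.P344.Dep

/-!
Tensor products of bounded-depth in-place circuits are cheap.
-/

namespace Vale.Agent.P344

open Finset Matrix Kronecker Complex

/-- The elementary shear. -/
def shear (c : ℂ) : Matrix (ZMod 2) (ZMod 2) ℂ :=
  Matrix.of fun a b => if a = b then 1 else if a = 1 then c else 0

/-- A diagonal matrix of order two. -/
def dg (a b : ℂ) : Matrix (ZMod 2) (ZMod 2) ℂ := Matrix.diagonal fun i => if i = 0 then a else b

theorem shear_add (a b : ℂ) : shear (a + b) = shear a * shear b := by
  ext i j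
  rw [Matrix.mul_apply, sum_zmod2]
  rcases zmod2_cases i with rfl | rfl <;> rcases zmod2_cases j with rfl | rfl <;>
    simp [shear, add_comm]

theorem shear_fac {c : ℂ} (hc : c ≠ 0) :
    shear c = dg ((1 + I) / 2) (c * ((2 - 2 * I) / 5)) * C2 * dg 1 3 * C2 * dg 1 (1 / 2) * C2 *
      dg 1 (5 * I / 3 * c⁻¹) := by
  ext i j
  simp only [dg, Matrix.mul_diagonal, Matrix.diagonal_mul, Matrix.mul_apply (N := C2), sum_zmod2]
  rcases zmod2_cases i with rfl | rfl <;> rcases zmod2_cases j with rfl | rfl <;>
    simp [shear, C2] <;> field_simp <;> ring_nf <;> simp [I_pow_three, I_pow_four] <;> ring_nf <;>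
    simp [pow_succ]

variable {α : Type} [Fintype α] [DecidableEq α]

/-- A layer applying `C2` on every pair of a perfect matching. -/
def CLayer (L : Matrix α α ℂ) : Prop :=
  ∃ (n : ℕ) (e : α ≃ ZMod 2 × Fin n), L = (Matrix.blockDiagonal fun _ : Fin n => C2).submatrix e e

theorem dep_shear_block {n : ℕ} (e : α ≃ ZMod 2 × Fin n) (c : Fin n → ℂ) (hc : ∀ p, c p ≠ 0) :
    Dep CLayer 3 ((Matrix.blockDiagonal fun p => shear (c p)).submatrix e e) := by
  have hm : ∀ a b : Fin n → ℂ,
      IsMono ((Matrix.blockDiagonal fun p => dg (a p) (b p)).submatrix e e) := fun a b => by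
    refine IsMono.submatrix ?_ _ _
    simp only [dg]
    rw [Matrix.blockDiagonal_diagonal]
    exact isMono_diagonal _
  have hl : Dep CLayer 1 ((Matrix.blockDiagonal fun _ : Fin n => C2).submatrix e e) :=
    Dep.layer ⟨n, e, rfl⟩
  have h := (((((Dep.mono_mul (hm (fun _ => (1 + I) / 2) (fun p => c p * ((2 - 2 * I) / 5)))
    hl).mul_mono (hm (fun _ => 1) (fun _ => 3))).mul hl).mul_mono
      (hm (fun _ => 1) (fun _ => 1 / 2))).mul hl).mul_mono
      (hm (fun _ => 1) (fun p => 5 * I / 3 * (c p)⁻¹))
  simp only [Matrix.submatrix_mul_equiv, ← Matrix.blockDiagonal_mul] at h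
  rw [show (fun p => shear (c p)) = _ from funext fun p => shear_fac (hc p)]
  exact h

theorem dep_shear_block' {n : ℕ} (e : α ≃ ZMod 2 × Fin n) (c : Fin n → ℂ) :
    Dep CLayer 6 ((Matrix.blockDiagonal fun p => shear (c p)).submatrix e e) := by
  have h := (dep_shear_block e (fun p => if c p = 1 then 2 else 1) (fun p => by
      split_ifs <;> norm_num)).mul
    (dep_shear_block e (fun p => c p - if c p = 1 then 2 else 1) (fun p => by
      split_ifs with h
      · rw [h]; norm_num
      · exact sub_ne_zero.mpr h))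
  simp only [Matrix.submatrix_mul_equiv, ← Matrix.blockDiagonal_mul, ← shear_add,
    add_sub_cancel] at h
  exact h

theorem IsLayer.dep {L : Matrix α α ℂ} (hα : Even (Fintype.card α)) (hL : IsLayer L) :
    Dep CLayer 6 L := by
  obtain ⟨m, f, g, lam, hf, hg, h, rfl⟩ := hL
  obtain ⟨n, hn⟩ := hα
  let i' : ZMod 2 × Fin m → α := fun p => if p.1 = 0 then f p.2 else g p.2
  have hi' : Function.Injective i' := by
    rintro ⟨a, p⟩ ⟨b, q⟩ hpq
    rcases zmod2_cases a with rfl | rfl <;> rcases zmod2_cases b with rfl | rfl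
    · simp only [i', if_true] at hpq
      rw [hf hpq]
    · simp only [i', if_true, one_ne_zero, if_false] at hpq
      exact absurd hpq (h _ _)
    · simp only [i', if_true, one_ne_zero, if_false] at hpq
      exact absurd hpq.symm (h _ _)
    · simp only [i', one_ne_zero, if_false] at hpq
      rw [hg hpq]
  have hmn : m ≤ n := by
    have := Fintype.card_le_of_injective _ hi'
    simp only [Fintype.card_prod, ZMod.card, Fintype.card_fin] at this
    omega
  let j : Fin m → Fin n := Fin.castLE hmn
  have hj : Function.Injective j := Fin.castLE_injective hmn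
  let e0 : ZMod 2 × Fin n ≃ α := Fintype.equivOfCardEq (by simp; omega)
  obtain ⟨σ, hσ⟩ := Equiv.Perm.exists_extending_pair (f := fun p : ZMod 2 × Fin m => e0 (p.1, j p.2))
    (g := i') (e0.injective.comp (Function.Injective.prodMap Function.injective_id hj)) hi'
  let e : ZMod 2 × Fin n ≃ α := e0.trans σ
  have hef : f = e ∘ fun p => (0, j p) := by
    funext p
    have := hσ (0, p)
    simpa [i', e] using this.symm
  have heg : g = e ∘ fun p => (1, j p) := by
    funext p
    have := hσ (1, p)
    simpa [i', e] using this.symm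
  have key : (Matrix.blockDiagonal fun p => shear (Function.extend j lam 0 p)) =
      1 + inc (fun p : Fin m => ((1 : ZMod 2), j p)) *
        (Matrix.diagonal lam : Matrix (Fin m) (Fin m) ℂ) *
        (inc fun p : Fin m => ((0 : ZMod 2), j p))ᵀ := by
    ext ⟨a, p⟩ ⟨b, q⟩
    rw [Matrix.add_apply, Matrix.mul_apply]
    simp only [Matrix.mul_diagonal, Matrix.transpose_apply, inc_apply, Matrix.blockDiagonal_apply,
      shear, Matrix.of_apply, Matrix.one_apply, Prod.mk.injEq]
    by_cases hp : ∃ r, j r = p
    · obtain ⟨r, rfl⟩ := hp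
      rw [hj.extend_apply, Finset.sum_eq_single r]
      · by_cases hq : j r = q
        · subst hq
          rcases zmod2_cases a with rfl | rfl <;> rcases zmod2_cases b with rfl | rfl <;> simp
        · have hq' : ¬ q = j r := fun h => hq h.symm
          simp [hq, hq']
      · intro r' _ hr'
        simp [hj.eq_iff, hr'.symm]
      · simp
    · rw [Function.extend_apply' _ _ _ hp, Finset.sum_eq_zero]
      · by_cases hq : p = q <;> by_cases hab : a = b <;> simp [hq, hab]
      · intro r _
        have : p ≠ j r := fun h => hp ⟨r, h.symm⟩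
        simp [this]
  have h2 := dep_shear_block' e.symm (Function.extend j lam 0)
  rw [key, ← ext_equiv, Equiv.symm_symm, ext_shear, ← hef, ← heg] at h2
  exact h2

theorem cost_tprod_C2 (J : Type) [Fintype J] [DecidableEq J] :
    cost (tprod fun _ : J => C2) ≤ cost (tpow (Fintype.card J) C2) := by
  let g := (Fintype.equivFin J).symm
  have : (tprod fun _ : J => C2) = (tpow (Fintype.card J) C2).submatrix
      (fun x a => x (g a)) (fun x a => x (g a)) := by
    ext x y
    simp only [tpow, tprod_apply, Matrix.submatrix_apply]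
    rw [← Equiv.prod_comp g]
  rw [this]
  refine cost_submatrix_le _ _ _ fun x y h => ?_
  funext l
  obtain ⟨a, rfl⟩ := g.surjective l
  exact congrFun h a

section tensor
variable {J : Type} [Fintype J] [DecidableEq J] {β : J → Type} [∀ j, Fintype (β j)]
  [∀ j, DecidableEq (β j)]

theorem cost_tprod_clayer {K : ℝ}
    (hK : ∀ k : ℕ, (cost (tpow k C2) : ℝ) ≤ K * 2 ^ k * ((k : ℝ) + 1) ^ theta)
    {L : ∀ j, Matrix (β j) (β j) ℂ} (hL : ∀ j, CLayer (L j)) :
    (cost (tprod L) : ℝ) ≤
      Fintype.card (∀ j, β j) * (K * ((Fintype.card J : ℝ) + 1) ^ theta) := by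
  choose n e he using hL
  have h1 : tprod L = ((1 : Matrix (∀ j, Fin (n j)) (∀ j, Fin (n j)) ℂ) ⊗ₖ
      (tprod fun _ : J => C2)).submatrix (fun x => (fun j => (e j (x j)).2, fun j => (e j (x j)).1))
        (fun x => (fun j => (e j (x j)).2, fun j => (e j (x j)).1)) := by
    ext x y
    simp only [tprod_apply, he, Matrix.submatrix_apply, Matrix.kroneckerMap_apply,
      Matrix.blockDiagonal_apply, Matrix.one_apply]
    rw [← prod_ite_eq_fun, ← Finset.prod_mul_distrib]
    refine Finset.prod_congr rfl fun j _ => ?_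
    split_ifs <;> simp
  have h2 : cost (tprod L) ≤ Fintype.card (∀ j, Fin (n j)) * cost (tpow (Fintype.card J) C2) := by
    rw [h1]
    refine (cost_submatrix_le _ _ _ ?_).trans ((cost_one_kron _).trans ?_)
    · intro x y h
      simp only [Prod.mk.injEq] at h
      funext j
      exact (e j).injective (Prod.ext (congrFun h.2 j) (congrFun h.1 j))
    · exact Nat.mul_le_mul_left _ (cost_tprod_C2 J)
  have h3 : Fintype.card (∀ j, β j) = Fintype.card (∀ j, Fin (n j)) * 2 ^ Fintype.card J := by
    simp only [Fintype.card_pi, fun j => Fintype.card_congr (e j), Fintype.card_prod, ZMod.card,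
      Finset.prod_mul_distrib, Finset.prod_const, Finset.card_univ, mul_comm]
  rw [h3]
  have h4 := hK (Fintype.card J)
  calc (cost (tprod L) : ℝ) ≤ Fintype.card (∀ j, Fin (n j)) * cost (tpow (Fintype.card J) C2) := by
        exact_mod_cast h2
    _ ≤ Fintype.card (∀ j, Fin (n j)) * (K * 2 ^ Fintype.card J *
          ((Fintype.card J : ℝ) + 1) ^ theta) := by gcongr
    _ = _ := by push_cast; ring

theorem cost_tprod_dep {K : ℝ}
    (hK : ∀ k : ℕ, (cost (tpow k C2) : ℝ) ≤ K * 2 ^ k * ((k : ℝ) + 1) ^ theta)
    (d : ℕ) {A : ∀ j, Matrix (β j) (β j) ℂ} (hA : ∀ j, Dep CLayer d (A j)) :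
    (cost (tprod A) : ℝ) ≤
      Fintype.card (∀ j, β j) * (d * (K * ((Fintype.card J : ℝ) + 1) ^ theta + 1) + 1) := by
  induction d generalizing A with
  | zero =>
    have : (cost (tprod A) : ℝ) ≤ Fintype.card (∀ j, β j) := by
      exact_mod_cast (IsMono.tprod hA).cost_le
    simpa using this
  | succ d ih =>
    choose B L M hB hL hM he using hA
    have h1 : tprod A = tprod B * tprod L * tprod M := by
      rw [tprod_mul, tprod_mul]
      congr 1
      funext j
      exact he j
    have h2 : cost (tprod A) ≤ cost (tprod B) + cost (tprod L) + cost (tprod M) := by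
      rw [h1]
      exact (cost_mul_le _ _).trans (Nat.add_le_add_right (cost_mul_le _ _) _)
    have h3 := ih hB
    have h4 := cost_tprod_clayer hK hL
    have h5 : (cost (tprod M) : ℝ) ≤ Fintype.card (∀ j, β j) := by
      exact_mod_cast (IsMono.tprod hM).cost_le
    have h6 : (cost (tprod A) : ℝ) ≤ cost (tprod B) + cost (tprod L) + cost (tprod M) := by
      exact_mod_cast h2
    rw [Nat.cast_succ]
    linarith

end tensor

end Vale.Agent.P344
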