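import Vale.Agent.P344.Phase

/-!
Labelled linear networks: registers carry a phase label; moving a register costs transforms,
combining registers with the same label is cheap.
-/

namespace Vale.Agent.P344

open Set Finset Matrix Kronecker

/-- Phase labels. -/
abbrev Lab (ι : Type) : Type := (ι → ZMod 4) → ZMod 4

section Net
variable {ι : Type} [Fintype ι] [DecidableEq ι] {E : Type} [AddCommGroup E] [Module ℂ E]

/-- The actual values held by a set of labelled abstract data. -/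
def sem (k : ℕ) {V : Type} [AddCommGroup V] [Module ℂ V]
    (ψ : E →ₗ[ℂ] ((Fin k → ι → ZMod 2) → V)) (T : Set (Lab ι × E)) : Set V :=
  ⋃ z ∈ T, Set.range (app (tpow k (Lam z.1)) (ψ z.2))

/-- From the labelled data `T`, `a` elementary moves and a bounded number of pointwise operations
produce the labelled data `S`. -/
def Net (T : Set (Lab ι × E)) (a : ℕ) (S : Set (Lab ι × E)) : Prop :=
  ∃ c : ℕ, ∀ (k B : ℕ),
    (∀ f : (ι → ZMod 4) →+ ZMod 4, cost (tpow k (Lam fun x => f x ^ 2)) ≤ B) →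
    ∀ (V : Type) [AddCommGroup V] [Module ℂ V] (ψ : E →ₗ[ℂ] ((Fin k → ι → ZMod 2) → V)),
      Reach (sem k ψ T) (a * B + c * Fintype.card (Fin k → ι → ZMod 2)) (sem k ψ S)

theorem sem_mono (k : ℕ) {V : Type} [AddCommGroup V] [Module ℂ V]
    (ψ : E →ₗ[ℂ] ((Fin k → ι → ZMod 2) → V)) {T S : Set (Lab ι × E)} (h : T ⊆ S) :
    sem k ψ T ⊆ sem k ψ S :=
  Set.biUnion_subset_biUnion_left h

theorem sem_union (k : ℕ) {V : Type} [AddCommGroup V] [Module ℂ V]
    (ψ : E →ₗ[ℂ] ((Fin k → ι → ZMod 2) → V)) (T S : Set (Lab ι × E)) :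
    sem k ψ (T ∪ S) = sem k ψ T ∪ sem k ψ S :=
  Set.biUnion_union _ _ _

theorem Net.done {T S : Set (Lab ι × E)} (h : S ⊆ T) : Net T 0 S :=
  ⟨0, fun k _ _ _ _ _ ψ => Reach.done ((sem_mono k ψ h).trans (subset_insert _ _))⟩

theorem Net.seq {T S U : Set (Lab ι × E)} {a b : ℕ} (h : Net T a S) (h' : Net (T ∪ S) b U) :
    Net T (a + b) U := by
  obtain ⟨c, hc⟩ := h
  obtain ⟨c', hc'⟩ := h'
  refine ⟨c + c', fun k B hB V _ _ ψ => ?_⟩
  have h2 := hc' k B hB V ψ
  rw [sem_union] at h2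
  exact ((hc k B hB V ψ).seq h2).mono_le (le_of_eq (by ring))

theorem Net.mono_le {T S : Set (Lab ι × E)} {a b : ℕ} (h : Net T a S) (hab : a ≤ b) :
    Net T b S := by
  obtain ⟨c, hc⟩ := h
  exact ⟨c, fun k B hB V _ _ ψ => (hc k B hB V ψ).mono_le (by gcongr)⟩

theorem Net.move {T : Set (Lab ι × E)} {q q' : Lab ι} {d : E} {r : ℕ} (hd : (q, d) ∈ T)
    (hr : Short r (q' - q)) : Net T r {(q', d)} := by
  refine ⟨0, fun k B hB V _ _ ψ => ?_⟩
  have h1 := (cost_spec (tpow k (Lam (q' - q)))).mono (hr.cost_le hB) V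
    (app (tpow k (Lam q)) (ψ d))
  rw [← app_mul, ← tpow_Lam_add, sub_add_cancel] at h1
  refine ((h1.mono_left' ?_).mono_right' ?_).mono_le (by simp)
  · intro v hv
    simp only [sem, Set.mem_iUnion]
    exact ⟨(q, d), hd, hv⟩
  · simp [sem]

theorem Net.lin {T : Set (Lab ι × E)} {q : Lab ι} {d : E}
    (hd : d ∈ Submodule.span ℂ {e | (q, e) ∈ T}) : Net T 0 {(q, d)} := by
  obtain ⟨n, f, g, rfl⟩ := Submodule.mem_span_set'.mp hd
  refine ⟨2 * n, fun k B hB V _ _ ψ => ?_⟩
  have h1 := Reach.range (T := sem k ψ T) (z := app (tpow k (Lam q)) (ψ (∑ i, f i • (g i : E))))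
    (r := fun _ => 2 * n) (fun x => by
      have : app (tpow k (Lam q)) (ψ (∑ i, f i • (g i : E))) x =
          ∑ i, f i • app (tpow k (Lam q)) (ψ (g i : E)) x := by
        simp only [app, map_sum, map_smul, Finset.sum_apply, Pi.smul_apply, Finset.smul_sum]
        rw [Finset.sum_comm]
        simp only [smul_comm (f _)]
      rw [this]
      have h2 := Reach.lincomb Finset.univ (T := sem k ψ T) f
        (v := fun i => app (tpow k (Lam q)) (ψ (g i : E)) x) (fun i _ =>
          mem_insert_of_mem _ (Set.mem_biUnion (x := (q, (g i : E))) (g i).2 (mem_range_self x)))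
      simpa using h2)
  refine (h1.mono_right' ?_).mono_le ?_
  · simp [sem]
  · simp only [Finset.sum_const, Finset.card_univ, smul_eq_mul]
    exact le_of_eq (by ring)

theorem Net.step {T : Set (Lab ι × E)} (q : Lab ι) {q' : Lab ι} {d : E} {r : ℕ}
    (hd : d ∈ Submodule.span ℂ {e | (q, e) ∈ T}) (hr : Short r (q' - q)) : Net T r {(q', d)} := by
  have := (Net.lin hd).seq (Net.move (q := q) (d := d) (Or.inr rfl) hr)
  rwa [zero_add] at this

theorem Net.iUnion {J : Type} [Fintype J] {T : Set (Lab ι × E)} {S : J → Set (Lab ι × E)} {r : ℕ}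
    (h : ∀ j, Net T r (S j)) : Net T (Fintype.card J * r) (⋃ j, S j) := by
  choose c hc using h
  refine ⟨∑ j, c j, fun k B hB V _ _ ψ => ?_⟩
  have h1 := Reach.iUnion fun j => hc j k B hB V ψ
  refine (h1.mono_right' ?_).mono_le ?_
  · intro v hv
    simp only [sem, Set.mem_iUnion] at hv ⊢
    obtain ⟨z, ⟨j, hj⟩, hv⟩ := hv
    exact ⟨j, z, hj, hv⟩
  · rw [Finset.sum_add_distrib, Finset.sum_const, Finset.card_univ, smul_eq_mul, Finset.sum_mul]
    exact le_of_eq (by ring)

theorem Net.nextU {J : Type} [Fintype J] {T U : Set (Lab ι × E)} (S : J → Set (Lab ι × E))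
    {r b : ℕ} (h : ∀ j, Net T r (S j))
    (h' : ∀ T', T ⊆ T' → (∀ j, S j ⊆ T') → Net T' b U) : Net T (Fintype.card J * r + b) U :=
  (Net.iUnion h).seq (h' _ Set.subset_union_left fun j =>
    (Set.subset_iUnion S j).trans Set.subset_union_right)

theorem Net.next {J : Type} [Fintype J] {T U : Set (Lab ι × E)} (z : J → Lab ι × E)
    (r : ℕ) {b : ℕ} (h : ∀ j, Net T r {z j})
    (h' : ∀ T', T ⊆ T' → (∀ j, z j ∈ T') → Net T' b U) : Net T (Fintype.card J * r + b) U :=
  Net.nextU (fun j => {z j}) h fun T' hT hz => h' T' hT fun j => hz j rfl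

theorem Net.sound {W : Type} [Fintype W] [DecidableEq W] (q0 : W → Lab ι) (Q : Lab ι) {R : ℕ}
    (h : Net (Set.range fun w => (q0 w, (Pi.single w 1 : W → ℂ))) R
      (Set.range fun w => (Q + q0 w, (Pi.single w 1 : W → ℂ)))) :
    ∃ c : ℕ, ∀ (k B : ℕ),
      (∀ f : (ι → ZMod 4) →+ ZMod 4, cost (tpow k (Lam fun x => f x ^ 2)) ≤ B) →
      cost ((1 : Matrix W W ℂ) ⊗ₖ tpow k (Lam Q)) ≤
        R * B + c * Fintype.card (Fin k → ι → ZMod 2) := by
  obtain ⟨c, hc⟩ := h
  refine ⟨c, fun k B hB => Cost.cost_le fun V _ _ v => ?_⟩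
  have h1 := hc k B hB V (Fintype.linearCombination ℂ
    fun w => app (tpow k (Lam (-q0 w))) fun y => v (w, y))
  refine (h1.mono_left' ?_).mono_right' ?_
  · intro u hu
    simp only [sem, Set.mem_iUnion] at hu
    obtain ⟨_, ⟨w, rfl⟩, x, rfl⟩ := hu
    simp only [Fintype.linearCombination_apply_single, one_smul]
    rw [← app_mul, ← tpow_Lam_add, add_neg_cancel, tpow_Lam_zero, app_one]
    exact mem_range_self _
  · rintro _ ⟨⟨w, x⟩, rfl⟩
    simp only [sem, Set.mem_iUnion]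
    refine ⟨_, ⟨w, rfl⟩, x, ?_⟩
    simp only [Fintype.linearCombination_apply_single, one_smul]
    rw [← app_mul, ← tpow_Lam_add, add_neg_cancel_right]
    simp [app, Fintype.sum_prod_type, Matrix.one_apply, ite_smul]

end Net

end Vale.Agent.P344
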