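import Vale.Agent.P344.Gadget

/-!
Tensor powers of `C2` cost `O(2 ^ k * k ^ θ)` with `θ < 1`.
-/

namespace Vale.Agent.P344

open Finset Matrix Kronecker

section kron
variable {ι κ ι' κ' B W : Type} [Fintype ι] [Fintype κ] [Fintype ι'] [Fintype B] [DecidableEq B]
  [Fintype W] [DecidableEq W]

theorem cost_kron_submatrix (A : Matrix κ ι ℂ) (f : κ' → κ) (g : ι' → ι)
    (hg : Function.Injective g) :
    cost ((1 : Matrix W W ℂ) ⊗ₖ A.submatrix f g) ≤ cost ((1 : Matrix W W ℂ) ⊗ₖ A) := by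
  have : (1 : Matrix W W ℂ) ⊗ₖ A.submatrix f g =
      ((1 : Matrix W W ℂ) ⊗ₖ A).submatrix (Prod.map id f) (Prod.map id g) := by
    ext ⟨a, b⟩ ⟨c, d⟩
    simp
  rw [this]
  exact cost_submatrix_le _ _ _ (Function.Injective.prodMap Function.injective_id hg)

theorem cost_kron_kron_one (A : Matrix κ ι ℂ) :
    cost ((1 : Matrix W W ℂ) ⊗ₖ (A ⊗ₖ (1 : Matrix B B ℂ))) ≤
      Fintype.card B * cost ((1 : Matrix W W ℂ) ⊗ₖ A) := by
  have : (1 : Matrix W W ℂ) ⊗ₖ (A ⊗ₖ (1 : Matrix B B ℂ)) =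
      ((1 : Matrix B B ℂ) ⊗ₖ ((1 : Matrix W W ℂ) ⊗ₖ A)).submatrix
        (fun p => (p.2.2, p.1, p.2.1)) (fun p => (p.2.2, p.1, p.2.1)) := by
    ext ⟨a, b, e⟩ ⟨c, d, f⟩
    simp only [Matrix.kroneckerMap_apply, Matrix.submatrix_apply]
    ring
  rw [this]
  refine (cost_submatrix_le _ _ _ ?_).trans (cost_one_kron _)
  rintro ⟨a, b, e⟩ ⟨c, d, f⟩ h
  simp only [Prod.mk.injEq] at h ⊢
  tauto

theorem cost_kron_one_kron (A : Matrix κ ι ℂ) :
    cost ((1 : Matrix W W ℂ) ⊗ₖ ((1 : Matrix B B ℂ) ⊗ₖ A)) ≤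
      Fintype.card B * cost ((1 : Matrix W W ℂ) ⊗ₖ A) := by
  have : (1 : Matrix W W ℂ) ⊗ₖ ((1 : Matrix B B ℂ) ⊗ₖ A) =
      ((1 : Matrix B B ℂ) ⊗ₖ ((1 : Matrix W W ℂ) ⊗ₖ A)).submatrix
        (fun p => (p.2.1, p.1, p.2.2)) (fun p => (p.2.1, p.1, p.2.2)) := by
    ext ⟨a, b, e⟩ ⟨c, d, f⟩
    simp only [Matrix.kroneckerMap_apply, Matrix.submatrix_apply]
    ring
  rw [this]
  refine (cost_submatrix_le _ _ _ ?_).trans (cost_one_kron _)
  rintro ⟨a, b, e⟩ ⟨c, d, f⟩ h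
  simp only [Prod.mk.injEq] at h ⊢
  tauto

end kron

/-- The cost of one batch of `k`-th tensor powers. -/
noncomputable def Tc (k : ℕ) : ℕ := cost ((1 : Matrix (Reg 18) (Reg 18) ℂ) ⊗ₖ tpow k C2)

theorem Tc_add (a b : ℕ) : Tc (a + b) ≤ 2 ^ b * Tc a + 2 ^ a * Tc b := by
  have h1 : tpow (a + b) C2 = (tpow a C2 ⊗ₖ tpow b C2).submatrix
      (fun x => (fun i => x (Fin.castAdd b i), fun i => x (Fin.natAdd a i)))
      (fun x => (fun i => x (Fin.castAdd b i), fun i => x (Fin.natAdd a i))) := by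
    ext x y
    simp only [tpow, tprod_apply, Matrix.submatrix_apply, Matrix.kroneckerMap_apply,
      Fin.prod_univ_add]
  have h2 : (1 : Matrix (Reg 18) (Reg 18) ℂ) ⊗ₖ (tpow a C2 ⊗ₖ tpow b C2) =
      ((1 : Matrix (Reg 18) (Reg 18) ℂ) ⊗ₖ (tpow a C2 ⊗ₖ (1 : Matrix (Fin b → ZMod 2) _ ℂ))) *
      ((1 : Matrix (Reg 18) (Reg 18) ℂ) ⊗ₖ ((1 : Matrix (Fin a → ZMod 2) _ ℂ) ⊗ₖ tpow b C2)) := by
    rw [← Matrix.mul_kronecker_mul, ← Matrix.mul_kronecker_mul]
    simp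
  unfold Tc
  rw [h1]
  refine (cost_kron_submatrix _ _ _ ?_).trans ?_
  · intro x y h
    simp only [Prod.mk.injEq] at h
    funext i
    refine Fin.addCases (fun i => congrFun h.1 i) (fun i => congrFun h.2 i) i
  rw [h2]
  refine (cost_mul_le _ _).trans (add_le_add ?_ ?_)
  · simpa using cost_kron_kron_one (B := Fin b → ZMod 2) (W := Reg 18) (tpow a C2)
  · simpa using cost_kron_one_kron (B := Fin a → ZMod 2) (W := Reg 18) (tpow b C2)

theorem Tc_mul : ∃ c : ℕ, ∀ k q : ℕ, 2 ^ (323 * k) ≤ q * Fintype.card (Reg 18) →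
    Tc (k * 324) ≤ netCost 18 * (q * Tc k) + c * 2 ^ (k * 324) := by
  obtain ⟨c, hc⟩ := Net.sound lab0 (fun z => ∑ i, z i ^ 2)
    (network (h := 18) (by norm_num) fun w => (Pi.single w 1 : Reg 18 → ℂ))
  refine ⟨c, fun k q hq => ?_⟩
  have h1 := hc k (q * Tc k) (fun f => cost_tpow_sq k q (by simpa using hq) f)
  rw [Lam_norm] at h1
  let g : Fin k × (Fin 18 × Fin 18) ≃ Fin (k * 324) := Fintype.equivFinOfCardEq (by simp)
  have h2 : tpow (k * 324) C2 = (tpow k (tprod fun _ : Fin 18 × Fin 18 => C2)).submatrix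
      (fun x a i => x (g (a, i))) (fun x a i => x (g (a, i))) := by
    ext x y
    simp only [tpow, tprod_apply, Matrix.submatrix_apply]
    rw [← Equiv.prod_comp g, Fintype.prod_prod_type]
  unfold Tc at *
  rw [h2]
  refine (cost_kron_submatrix _ _ _ ?_).trans (h1.trans (le_of_eq ?_))
  · intro x y h
    funext l
    obtain ⟨⟨a, i⟩, rfl⟩ := g.surjective l
    exact congrFun (congrFun h a) i
  · congr 2
    rw [Fintype.card_fun, Fintype.card_fun, ZMod.card, Fintype.card_prod, Fintype.card_fin,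
      Fintype.card_fin, ← pow_mul, mul_comm k]

theorem growth_lemma (t : ℕ → ℝ) (ht : ∀ k, 0 ≤ t k) (m k0 : ℕ) (hm : 2 ≤ m) (θ c : ℝ)
    (hθ : 0 < θ) (hc : 0 ≤ c) (hadd : ∀ a b, t (a + b) ≤ t a + t b)
    (hmul : ∀ k, k0 ≤ k → t (k * m) ≤ (m : ℝ) ^ θ * t k + c) :
    ∃ K : ℝ, 0 ≤ K ∧ ∀ k : ℕ, t k ≤ K * ((k : ℝ) + 1) ^ θ := by
  have hρ : 1 < (m : ℝ) ^ θ := Real.one_lt_rpow (by exact_mod_cast hm) hθ
  set ρ := (m : ℝ) ^ θ with hρdef
  set D := ∑ r ∈ Finset.range m, t r with hD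
  have hD0 : 0 ≤ D := Finset.sum_nonneg fun r _ => ht r
  set c' := (c + D) / (ρ - 1) with hc'
  have hc'0 : 0 ≤ c' := div_nonneg (add_nonneg hc hD0) (by linarith)
  have hc'1 : ρ * c' = c' + (c + D) := by
    rw [hc']; field_simp [(sub_pos.mpr hρ).ne']; ring
  set K := ∑ r ∈ Finset.range (m * (k0 + 1)), t r + c' with hK
  have hK0 : 0 ≤ K := add_nonneg (Finset.sum_nonneg fun r _ => ht r) hc'0
  have hsmall : ∀ k, k < m * (k0 + 1) → t k + c' ≤ K := fun k hk => by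
    have := Finset.single_le_sum (f := t) (fun r _ => ht r) (Finset.mem_range.mpr hk)
    linarith
  have key : ∀ k : ℕ, 1 ≤ k → t k + c' ≤ K * (k : ℝ) ^ θ := by
    intro k
    induction k using Nat.strong_induction_on with
    | _ k ih =>
      intro hk
      by_cases hk2 : k < m * (k0 + 1)
      · have h1 : (1 : ℝ) ≤ (k : ℝ) ^ θ := Real.one_le_rpow (by exact_mod_cast hk) hθ.le
        have := hsmall k hk2
        nlinarith
      · push Not at hk2
        have hj : k0 + 1 ≤ k / m := (Nat.le_div_iff_mul_le (by omega)).mpr (by nlinarith)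
        have hjk : k / m < k := Nat.div_lt_self hk (by omega)
        have h1 := ih (k / m) hjk (by omega)
        have h2 := hmul (k / m) (by omega)
        have h3 := hadd (k / m * m) (k % m)
        rw [Nat.div_add_mod'] at h3
        have h4 : t (k % m) ≤ D := Finset.single_le_sum (f := t) (fun r _ => ht r)
          (Finset.mem_range.mpr (Nat.mod_lt _ (by omega)))
        have h5 : ρ * ((k / m : ℕ) : ℝ) ^ θ ≤ (k : ℝ) ^ θ := by
          rw [hρdef, ← Real.mul_rpow (by positivity) (by positivity)]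
          refine Real.rpow_le_rpow (by positivity) ?_ hθ.le
          exact_mod_cast Nat.mul_div_le k m
        calc t k + c' ≤ ρ * (t (k / m) + c') := by linarith
          _ ≤ ρ * (K * ((k / m : ℕ) : ℝ) ^ θ) := by gcongr
          _ = K * (ρ * ((k / m : ℕ) : ℝ) ^ θ) := by ring
          _ ≤ K * (k : ℝ) ^ θ := by gcongr
  refine ⟨K, hK0, fun k => ?_⟩
  rcases Nat.eq_zero_or_pos k with rfl | hk
  · have := hsmall 0 (by positivity)
    simp only [Nat.cast_zero, zero_add, Real.one_rpow, mul_one]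
    linarith
  · have h1 := key k hk
    have h2 : (k : ℝ) ^ θ ≤ ((k : ℝ) + 1) ^ θ :=
      Real.rpow_le_rpow (by positivity) (by linarith) hθ.le
    nlinarith

/-- The exponent of the saving. -/
noncomputable def theta : ℝ := 1 - 6 / 10 ^ 8

theorem card_Tri : Fintype.card (Tri 18) = 816 := by
  rw [Fintype.card_finset_len, Fintype.card_fin]
  rfl

theorem card_Reg_bounds :
    0 < Fintype.card (Reg 18) ∧ Fintype.card (Reg 18) ≤ 816 * 1333344 := by
  have h1 : Fintype.card (Orth 18) ≤ 816 * 816 := by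
    refine (Fintype.card_subtype_le _).trans ?_
    rw [Fintype.card_prod, card_Tri]
  simp only [Fintype.card_sum, Fintype.card_prod, card_Tri]
  omega

theorem ratio_lt_aux (w R : ℕ) (h0 : 0 < w) (h1 : w ≤ 816 * 1333344)
    (h2 : R + 816 ^ 2 = w * (18 * 18) + 2 * 816 * (18 * 18)) :
    (R : ℝ) / w < (324 : ℝ) ^ theta := by
  have h2' : (R : ℝ) = w * 324 - 816 * 168 := by
    have : (R : ℝ) + 816 ^ 2 = w * (18 * 18) + 2 * 816 * (18 * 18) := by exact_mod_cast h2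
    linarith
  have h0' : (0 : ℝ) < w := by exact_mod_cast h0
  have h1' : (w : ℝ) ≤ 816 * 1333344 := by exact_mod_cast h1
  have hlog : Real.log 324 ≤ 6 := by
    rw [Real.log_le_iff_le_exp (by norm_num)]
    have h := Real.exp_one_gt_d9
    have : Real.exp 6 = Real.exp 1 ^ 6 := by rw [← Real.exp_nat_mul]; norm_num
    rw [this]
    calc (324 : ℝ) ≤ 2.7 ^ 6 := by norm_num
      _ ≤ Real.exp 1 ^ 6 := by gcongr; linarith
  have h3 : (324 : ℝ) * (1 - 6 / 10 ^ 8 * 6) ≤ (324 : ℝ) ^ theta := by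
    rw [theta, sub_eq_add_neg (1 : ℝ) (6 / 10 ^ 8), Real.rpow_add (by norm_num), Real.rpow_one,
      Real.rpow_def_of_pos (by norm_num)]
    gcongr
    have := Real.add_one_le_exp (Real.log 324 * -(6 / 10 ^ 8))
    generalize Real.log 324 = l at *
    generalize Real.exp (l * -(6 / 10 ^ 8)) = e at *
    clear h2 h1 h0 h2' h1' h0'
    linarith
  refine lt_of_lt_of_le ?_ h3
  rw [div_lt_iff₀ h0', h2']
  clear h2 h1 h0 h2' h3 hlog
  generalize (w : ℝ) = x at *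
  linarith

theorem growth_aux (T : ℕ → ℕ) (w R c : ℕ) (h0 : 0 < w) (hr : (R : ℝ) / w < (324 : ℝ) ^ theta)
    (hadd : ∀ a b, T (a + b) ≤ 2 ^ b * T a + 2 ^ a * T b)
    (hc : ∀ k q : ℕ, 2 ^ (323 * k) ≤ q * w → T (k * 324) ≤ R * (q * T k) + c * 2 ^ (k * 324)) :
    ∃ K : ℝ, 0 ≤ K ∧ ∀ k : ℕ, (T k : ℝ) ≤ K * 2 ^ k * ((k : ℝ) + 1) ^ theta := by
  have h0' : (0 : ℝ) < w := by exact_mod_cast h0
  obtain ⟨ε, hε⟩ : ∃ ε : ℝ, ε = (324 : ℝ) ^ theta - R / w := ⟨_, rfl⟩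
  have hε0 : 0 < ε := by linarith
  obtain ⟨k0, hk0⟩ := pow_unbounded_of_one_lt (R / ε) (one_lt_two (α := ℝ))
  obtain ⟨K, hK0, hK⟩ := growth_lemma (fun k => (T k : ℝ) / 2 ^ k) (fun k => by positivity)
    324 k0 (by norm_num) theta c (by rw [theta]; norm_num) (by positivity)
    (fun a b => by
      have : (T (a + b) : ℝ) ≤ 2 ^ b * T a + 2 ^ a * T b := by exact_mod_cast hadd a b
      rw [div_add_div _ _ (by positivity) (by positivity), pow_add]
      gcongr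
      linarith)
    (fun k hk => by
      have h1 := hc k (2 ^ (323 * k) / w + 1) (by
        have := Nat.lt_div_mul_add (a := 2 ^ (323 * k)) h0
        nlinarith)
      have h2 : (T (k * 324) : ℝ) ≤ R * (((2 ^ (323 * k) / w + 1 : ℕ) : ℝ) * T k) +
          c * 2 ^ (k * 324) := by exact_mod_cast h1
      have h3 : ((2 ^ (323 * k) / w + 1 : ℕ) : ℝ) ≤ 2 ^ (323 * k) / w + 1 := by
        rw [Nat.cast_add, Nat.cast_one]
        gcongr
        exact_mod_cast Nat.cast_div_le (α := ℝ) (m := 2 ^ (323 * k)) (n := w)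
      have h4 : (R : ℝ) ≤ ε * 2 ^ (323 * k) := by
        rw [div_lt_iff₀ hε0] at hk0
        have : (2 : ℝ) ^ k0 ≤ 2 ^ (323 * k) := pow_le_pow_right₀ one_le_two (by omega)
        nlinarith
      have h5 : (2 : ℝ) ^ (k * 324) = 2 ^ (323 * k) * 2 ^ k := by
        rw [← pow_add]; congr 1; ring
      have h6 : (R : ℝ) * (2 ^ (323 * k) / w + 1) ≤ (324 : ℝ) ^ theta * 2 ^ (323 * k) := by
        have : (324 : ℝ) ^ theta = R / w + ε := by rw [hε]; ring
        rw [this]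
        have e : (R : ℝ) * (2 ^ (323 * k) / w + 1) = R / w * 2 ^ (323 * k) + R := by ring
        rw [e, add_mul]
        linarith
      rw [div_le_iff₀ (by positivity)]
      rw [Nat.cast_ofNat]
      calc (T (k * 324) : ℝ) ≤ R * ((2 ^ (323 * k) / w + 1) * T k) + c * 2 ^ (k * 324) := by
            refine h2.trans ?_
            gcongr
        _ = (R * (2 ^ (323 * k) / w + 1)) * T k + c * 2 ^ (k * 324) := by ring
        _ ≤ ((324 : ℝ) ^ theta * 2 ^ (323 * k)) * T k + c * 2 ^ (k * 324) := by gcongr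
        _ = _ := by rw [h5]; field_simp)
  refine ⟨K, hK0, fun k => ?_⟩
  have h1 := hK k
  rw [div_le_iff₀ (by positivity)] at h1
  linarith

theorem cost_tpow_C2 :
    ∃ K : ℝ, 0 ≤ K ∧ ∀ k : ℕ, (cost (tpow k C2) : ℝ) ≤ K * 2 ^ k * ((k : ℝ) + 1) ^ theta := by
  obtain ⟨c, hc⟩ := Tc_mul
  obtain ⟨h0, h1⟩ := card_Reg_bounds
  have h2 := netCost_eq (h := 18) (by norm_num)
  rw [card_Tri] at h2
  obtain ⟨K, hK0, hK⟩ := growth_aux Tc _ _ c h0 (ratio_lt_aux _ _ h0 h1 h2) Tc_add hc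
  refine ⟨K, hK0, fun k => le_trans ?_ (hK k)⟩
  have : Nonempty (Reg 18) := Fintype.card_pos_iff.mp h0
  exact Nat.cast_le.mpr (cost_le_batch (W := Reg 18) (tpow k C2))

end Vale.Agent.P344
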