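import Vale.Agent.P344.Defs

/-!
Straight-line reachability of sets of vectors, and the cost of a matrix.
-/

namespace Vale.Agent.P344

open Set Finset Matrix

section Reach

variable {V : Type} [AddCommGroup V] [Module ℂ V]

/-- `Reach T k S`: from the values in `T` (and `0`), at most `k` gates produce all values in `S`. -/
inductive Reach : Set V → ℕ → Set V → Prop
  | done {T S : Set V} {k : ℕ} : S ⊆ insert 0 T → Reach T k S
  | add {T S : Set V} {k : ℕ} {u v : V} : u ∈ insert 0 T → v ∈ insert 0 T →
      Reach (insert (u + v) T) k S → Reach T (k + 1) S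
  | smul {T S : Set V} {k : ℕ} {u : V} (c : ℂ) : u ∈ insert 0 T →
      Reach (insert (c • u) T) k S → Reach T (k + 1) S

theorem Reach.mono_left {T S : Set V} {k : ℕ} (h : Reach T k S) :
    ∀ {T' : Set V}, T ⊆ insert 0 T' → Reach T' k S := by
  induction h with
  | done h =>
    intro T' hT
    exact Reach.done (h.trans (insert_subset (mem_insert _ _) hT))
  | add hu hv _ ih =>
    intro T' hT
    have h0 := insert_subset (mem_insert (0 : V) T') hT
    refine Reach.add (h0 hu) (h0 hv) (ih ?_)
    refine insert_subset (mem_insert_of_mem _ (mem_insert _ _)) (hT.trans ?_)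
    exact insert_subset_insert (subset_insert _ _)
  | smul c hu _ ih =>
    intro T' hT
    have h0 := insert_subset (mem_insert (0 : V) T') hT
    refine Reach.smul c (h0 hu) (ih ?_)
    refine insert_subset (mem_insert_of_mem _ (mem_insert _ _)) (hT.trans ?_)
    exact insert_subset_insert (subset_insert _ _)

theorem Reach.mono_left' {T S T' : Set V} {k : ℕ} (h : Reach T k S) (hT : T ⊆ T') :
    Reach T' k S := h.mono_left (hT.trans (subset_insert _ _))

theorem Reach.mono_right {T S : Set V} {k : ℕ} (h : Reach T k S) :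
    ∀ {S' : Set V}, S' ⊆ insert 0 (T ∪ S) → Reach T k S' := by
  induction h with
  | done h =>
    intro S' hS
    refine Reach.done (hS.trans (insert_subset (mem_insert _ _) ?_))
    exact union_subset (subset_insert _ _) h
  | add hu hv _ ih =>
    intro S' hS
    refine Reach.add hu hv (ih (hS.trans (insert_subset_insert ?_)))
    exact union_subset_union_left _ (subset_insert _ _)
  | smul c hu _ ih =>
    intro S' hS
    refine Reach.smul c hu (ih (hS.trans (insert_subset_insert ?_)))
    exact union_subset_union_left _ (subset_insert _ _)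

theorem Reach.mono_right' {T S S' : Set V} {k : ℕ} (h : Reach T k S) (hS : S' ⊆ S) :
    Reach T k S' :=
  h.mono_right (hS.trans (subset_union_right.trans (subset_insert _ _)))

theorem Reach.succ {T S : Set V} {k : ℕ} (h : Reach T k S) : Reach T (k + 1) S := by
  induction h with
  | done h => exact Reach.done h
  | add hu hv _ ih => exact Reach.add hu hv ih
  | smul c hu _ ih => exact Reach.smul c hu ih

theorem Reach.mono_le {T S : Set V} {k l : ℕ} (h : Reach T k S) (hkl : k ≤ l) : Reach T l S := by
  induction hkl with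
  | refl => exact h
  | step _ ih => exact ih.succ

theorem Reach.seq {T S : Set V} {a : ℕ} (h : Reach T a S) :
    ∀ {U : Set V} {b : ℕ}, Reach (T ∪ S) b U → Reach T (a + b) U := by
  induction h with
  | done h =>
    intro U b h2
    exact (h2.mono_left (union_subset (subset_insert _ _) h)).mono_le (Nat.le_add_left _ _)
  | @add T S k u v hu hv _ ih =>
    intro U b h2
    have : k + 1 + b = (k + b) + 1 := by omega
    rw [this]
    exact Reach.add hu hv (ih (h2.mono_left' (union_subset_union_left _ (subset_insert _ _))))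
  | @smul T S k u c hu _ ih =>
    intro U b h2
    have : k + 1 + b = (k + b) + 1 := by omega
    rw [this]
    exact Reach.smul c hu (ih (h2.mono_left' (union_subset_union_left _ (subset_insert _ _))))

theorem Reach.trans {T S U : Set V} {a b : ℕ} (h : Reach T a S) (h2 : Reach S b U) :
    Reach T (a + b) U :=
  h.seq (h2.mono_left' subset_union_right)

theorem Reach.union {T S U : Set V} {a b : ℕ} (h : Reach T a S) (h2 : Reach T b U) :
    Reach T (a + b) (S ∪ U) := by
  refine h.seq ((h2.mono_left' subset_union_left).mono_right ?_)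
  intro x hx
  rcases hx with hx | hx
  · exact mem_insert_of_mem _ (Or.inl (Or.inr hx))
  · exact mem_insert_of_mem _ (Or.inr hx)

theorem Reach.biUnion {J : Type*} (s : Finset J) {T : Set V} {S : J → Set V} {r : J → ℕ}
    (h : ∀ j ∈ s, Reach T (r j) (S j)) : Reach T (∑ j ∈ s, r j) (⋃ j ∈ s, S j) := by
  classical
  induction s using Finset.induction_on with
  | empty => exact Reach.done (by simp)
  | insert a s ha ih =>
    rw [Finset.sum_insert ha, Finset.set_biUnion_insert]
    exact (h a (Finset.mem_insert_self _ _)).union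
      (ih fun j hj => h j (Finset.mem_insert_of_mem hj))

theorem Reach.iUnion {J : Type*} [Fintype J] {T : Set V} {S : J → Set V} {r : J → ℕ}
    (h : ∀ j, Reach T (r j) (S j)) : Reach T (∑ j, r j) (⋃ j, S j) := by
  have := Reach.biUnion Finset.univ (T := T) (S := S) (r := r) (fun j _ => h j)
  simpa using this

theorem Reach.range {J : Type*} [Fintype J] {T : Set V} {z : J → V} {r : J → ℕ}
    (h : ∀ j, Reach T (r j) {z j}) : Reach T (∑ j, r j) (Set.range z) := by
  have := Reach.iUnion h
  rwa [Set.iUnion_singleton_eq_range] at this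

theorem Reach.one_smul {T : Set V} {u : V} (c : ℂ) (hu : u ∈ insert 0 T) : Reach T 1 {c • u} :=
  Reach.smul c hu (Reach.done (by simp))

theorem Reach.one_add {T : Set V} {u v : V} (hu : u ∈ insert 0 T) (hv : v ∈ insert 0 T) :
    Reach T 1 {u + v} :=
  Reach.add hu hv (Reach.done (by simp))

theorem Reach.lincomb {J : Type*} (s : Finset J) {T : Set V} (c : J → ℂ) {v : J → V}
    (hv : ∀ j ∈ s, v j ∈ insert 0 T) : Reach T (2 * s.card) {∑ j ∈ s, c j • v j} := by
  classical
  induction s using Finset.induction_on with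
  | empty => exact Reach.done (by simp)
  | insert a s ha ih =>
    rw [Finset.sum_insert ha, Finset.card_insert_of_notMem ha]
    have h1 := ih fun j hj => hv j (Finset.mem_insert_of_mem hj)
    have h2 := Reach.one_smul (c a) (hv a (Finset.mem_insert_self _ _))
    have h3 : Reach ({c a • v a} ∪ {∑ j ∈ s, c j • v j}) 1 {c a • v a + ∑ j ∈ s, c j • v j} :=
      Reach.one_add (by simp) (by simp)
    have := (h2.union h1).trans h3
    exact this.mono_le (by omega)

end Reach

/-- A matrix acting on a family of vectors. -/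
def app {ι κ V : Type} [Fintype ι] [AddCommGroup V] [Module ℂ V] (A : Matrix κ ι ℂ) (v : ι → V) :
    κ → V := fun j => ∑ i, A j i • v i

section app
variable {ι κ μ V : Type} [Fintype ι] [AddCommGroup V] [Module ℂ V]

theorem app_mul [Fintype κ] (B : Matrix μ κ ℂ) (A : Matrix κ ι ℂ) (v : ι → V) :
    app (B * A) v = app B (app A v) := by
  funext j
  simp only [app, Matrix.mul_apply, Finset.sum_smul, Finset.smul_sum, smul_smul]
  exact Finset.sum_comm

theorem app_one [DecidableEq ι] (v : ι → V) : app (1 : Matrix ι ι ℂ) v = v := by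
  funext j
  simp [app, Matrix.one_apply]

theorem app_add (A : Matrix κ ι ℂ) (v w : ι → V) : app A (v + w) = app A v + app A w := by
  funext j
  simp [app, Finset.sum_add_distrib]

theorem app_smul (A : Matrix κ ι ℂ) (c : ℂ) (v : ι → V) : app A (c • v) = c • app A v := by
  funext j
  simp only [app, Pi.smul_apply, Finset.smul_sum, smul_comm c]

theorem app_zero (A : Matrix κ ι ℂ) : app A (0 : ι → V) = 0 := by
  funext j
  simp [app]

end app

/-- `k` gates suffice to apply `A`. -/
def Cost {ι κ : Type} [Fintype ι] (A : Matrix κ ι ℂ) (k : ℕ) : Prop :=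
  ∀ (V : Type) [AddCommGroup V] [Module ℂ V] (v : ι → V),
    Reach (Set.range v) k (Set.range (app A v))

/-- The least number of gates needed to apply `A`. -/
noncomputable def cost {ι κ : Type} [Fintype ι] (A : Matrix κ ι ℂ) : ℕ := sInf {k | Cost A k}

section cost
variable {ι κ μ ι' κ' : Type} [Fintype ι]

theorem Cost.cost_le {A : Matrix κ ι ℂ} {k : ℕ} (h : Cost A k) : cost A ≤ k :=
  Nat.sInf_le h

theorem cost_trivial [Fintype κ] (A : Matrix κ ι ℂ) :
    Cost A (Fintype.card κ * (2 * Fintype.card ι)) := by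
  intro V _ _ v
  have := Reach.range (T := Set.range v) (z := app A v) (r := fun _ => 2 * Fintype.card ι)
    (fun j => Reach.lincomb Finset.univ (A j) (fun i _ => mem_insert_of_mem _ (mem_range_self i)))
  simpa using this

theorem cost_spec [Fintype κ] (A : Matrix κ ι ℂ) : Cost A (cost A) :=
  Nat.sInf_mem (s := {k | Cost A k}) ⟨_, cost_trivial A⟩

theorem Cost.mono {A : Matrix κ ι ℂ} {k l : ℕ} (h : Cost A k) (hkl : k ≤ l) : Cost A l :=
  fun V _ _ v => (h V v).mono_le hkl

theorem cost_mul_le [Fintype κ] [Fintype μ] (B : Matrix μ κ ℂ) (A : Matrix κ ι ℂ) :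
    cost (B * A) ≤ cost B + cost A := by
  refine Cost.cost_le fun V _ _ v => ?_
  rw [app_mul, add_comm]
  exact (cost_spec A V v).trans (cost_spec B V _)

theorem cost_submatrix_le [Fintype κ] [Fintype ι'] (A : Matrix κ ι ℂ) (f : κ' → κ) (g : ι' → ι)
    (hg : Function.Injective g) : cost (A.submatrix f g) ≤ cost A := by
  classical
  refine Cost.cost_le fun V _ _ v => ?_
  have h := cost_spec A V (Function.extend g v 0)
  refine (h.mono_left ?_).mono_right' ?_
  · rintro _ ⟨i, rfl⟩
    by_cases hi : ∃ i', g i' = i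
    · obtain ⟨i', rfl⟩ := hi
      rw [hg.extend_apply]
      exact mem_insert_of_mem _ (mem_range_self _)
    · rw [Function.extend_apply' _ _ _ hi]
      exact mem_insert _ _
  · rintro _ ⟨j, rfl⟩
    refine ⟨f j, ?_⟩
    simp only [app, Matrix.submatrix_apply]
    symm
    refine Fintype.sum_of_injective g hg _ _ ?_ ?_
    · intro i hi
      rw [Function.extend_apply' _ _ _ (by simpa using hi)]
      simp
    · intro i
      rw [hg.extend_apply]

theorem cost_one [DecidableEq ι] : cost (1 : Matrix ι ι ℂ) = 0 := by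
  refine Nat.eq_zero_of_le_zero (Cost.cost_le fun V _ _ v => ?_)
  rw [app_one]
  exact Reach.done (subset_insert _ _)

/-- Each row is a multiple of a single input. -/
def IsMono {ι κ : Type} (A : Matrix κ ι ℂ) : Prop :=
  ∀ j, ∃ i, ∀ i', i' ≠ i → A j i' = 0

theorem IsMono.cost_le [Fintype κ] {A : Matrix κ ι ℂ} (h : IsMono A) :
    cost A ≤ Fintype.card κ := by
  refine Cost.cost_le fun V _ _ v => ?_
  have := Reach.range (T := Set.range v) (z := app A v) (r := fun _ => 1) (fun j => by
    obtain ⟨i, hi⟩ := h j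
    have : app A v j = A j i • v i := by
      refine Finset.sum_eq_single i (fun i' _ h' => ?_) (by simp)
      rw [hi i' h', zero_smul]
    rw [this]
    exact Reach.one_smul _ (mem_insert_of_mem _ (mem_range_self i)))
  simpa using this

end cost

section link

/-- From abstract reachability to an honest circuit. -/
theorem Reach.circuit {n : ℕ} {T S : Set ((Fin n → ℂ) → ℂ)} {k : ℕ} (h : Reach T k S) :
    ∀ (l : ℕ) (C : Circuit n l), (∀ t ∈ T, ∃ w : Wire n l, ∀ x, w.val x (C.vals x) = t x) →
      ∃ (l' : ℕ) (C' : Circuit n l'), l' ≤ l + k ∧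
        ∀ t ∈ S, ∃ w : Wire n l', ∀ x, w.val x (C'.vals x) = t x := by
  have key : ∀ {T : Set ((Fin n → ℂ) → ℂ)} {l : ℕ} (C : Circuit n l),
      (∀ t ∈ T, ∃ w : Wire n l, ∀ x, w.val x (C.vals x) = t x) →
      ∀ t ∈ insert 0 T, ∃ w : Wire n l, ∀ x, w.val x (C.vals x) = t x := by
    intro T l C hT t ht
    rcases ht with rfl | ht
    · exact ⟨Wire.zero, fun x => rfl⟩
    · exact hT t ht
  have ext : ∀ {T : Set ((Fin n → ℂ) → ℂ)} {l : ℕ} (C : Circuit n l) (g : Gate n l)
      (u : (Fin n → ℂ) → ℂ), (∀ x, g.val x (C.vals x) = u x) →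
      (∀ t ∈ T, ∃ w : Wire n l, ∀ x, w.val x (C.vals x) = t x) →
      ∀ t ∈ insert u T, ∃ w : Wire n (l + 1), ∀ x, w.val x ((C.snoc g).vals x) = t x := by
    intro T l C g u hu hT t ht
    rcases ht with rfl | ht
    · exact ⟨Wire.gate (Fin.last l), fun x => by simp [Wire.val, Circuit.vals, hu]⟩
    · obtain ⟨w, hw⟩ := hT t ht
      cases w with
      | zero => exact ⟨Wire.zero, hw⟩
      | input j => exact ⟨Wire.input j, hw⟩
      | gate i =>
        refine ⟨Wire.gate i.castSucc, fun x => ?_⟩
        simpa [Wire.val, Circuit.vals] using hw x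
  induction h with
  | done h =>
    intro l C hT
    exact ⟨l, C, Nat.le_add_right _ _, fun t ht => key C hT t (h ht)⟩
  | add hu hv _ ih =>
    intro l C hT
    obtain ⟨wu, hwu⟩ := key C hT _ hu
    obtain ⟨wv, hwv⟩ := key C hT _ hv
    obtain ⟨l', C', hl, hS⟩ := ih (l + 1) (C.snoc (Gate.add wu wv))
      (ext C _ _ (fun x => by simp [Gate.val, hwu, hwv]) hT)
    exact ⟨l', C', by omega, hS⟩
  | smul c hu _ ih =>
    intro l C hT
    obtain ⟨wu, hwu⟩ := key C hT _ hu
    obtain ⟨l', C', hl, hS⟩ := ih (l + 1) (C.snoc (Gate.smul c wu))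
      (ext C _ _ (fun x => by simp [Gate.val, hwu]) hT)
    exact ⟨l', C', by omega, hS⟩

theorem exists_circuit (n : ℕ) :
    ∃ (k : ℕ) (C : Circuit n k), C.ComputesDFT ∧ k ≤ cost (dftMatrix n) := by
  have h := cost_spec (dftMatrix n) ((Fin n → ℂ) → ℂ) (fun i x => x i)
  obtain ⟨l', C', hl, hS⟩ := h.circuit 0 Circuit.nil (by
    rintro _ ⟨i, rfl⟩
    exact ⟨Wire.input i, fun x => rfl⟩)
  refine ⟨l', C', ?_, by simpa using hl⟩
  choose out hout using fun j => hS _ (mem_range_self j)
  refine ⟨out, fun x j => ?_⟩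
  rw [hout j x]
  simp [app, Matrix.mulVec, dotProduct]

end link

end Vale.Agent.P344
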