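import Vale.Agent.P344.Reach

/-!
Tensor products of matrices and batches of copies.
-/

namespace Vale.Agent.P344

open Set Finset Matrix Kronecker

section tprod
variable {J : Type} [Fintype J] {α β γ : J → Type}

/-- The tensor product of a finite family of matrices. -/
def tprod (A : ∀ j, Matrix (α j) (β j) ℂ) : Matrix (∀ j, α j) (∀ j, β j) ℂ :=
  Matrix.of fun x y => ∏ j, A j (x j) (y j)

theorem tprod_apply (A : ∀ j, Matrix (α j) (β j) ℂ) (x : ∀ j, α j) (y : ∀ j, β j) :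
    tprod A x y = ∏ j, A j (x j) (y j) := rfl

theorem tprod_mul [DecidableEq J] [∀ j, Fintype (β j)] (A : ∀ j, Matrix (α j) (β j) ℂ)
    (B : ∀ j, Matrix (β j) (γ j) ℂ) : tprod A * tprod B = tprod fun j => A j * B j := by
  ext x z
  simp only [tprod_apply, Matrix.mul_apply]
  rw [Finset.prod_univ_sum, Fintype.piFinset_univ]
  simp only [Finset.prod_mul_distrib]

theorem prod_ite_eq_fun [∀ j, DecidableEq (α j)] (x y : ∀ j, α j) [Decidable (x = y)] :
    (∏ j, if x j = y j then (1 : ℂ) else 0) = if x = y then 1 else 0 := by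
  by_cases h : x = y
  · subst h; simp
  · rw [if_neg h]
    obtain ⟨j, hj⟩ := Function.ne_iff.mp h
    exact Finset.prod_eq_zero (Finset.mem_univ j) (if_neg hj)

theorem tprod_one [∀ j, DecidableEq (α j)] [DecidableEq (∀ j, α j)] :
    tprod (fun j => (1 : Matrix (α j) (α j) ℂ)) = 1 := by
  ext x y
  simp only [tprod_apply, Matrix.one_apply]
  exact prod_ite_eq_fun x y

theorem IsMono.tprod {A : ∀ j, Matrix (α j) (β j) ℂ} (h : ∀ j, IsMono (A j)) :
    IsMono (tprod A) := by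
  intro x
  choose y hy using fun j => h j (x j)
  refine ⟨y, fun y' hy' => ?_⟩
  obtain ⟨j, hj⟩ := Function.ne_iff.mp hy'
  exact Finset.prod_eq_zero (Finset.mem_univ j) (hy j _ hj)

end tprod

section mono
variable {ι κ μ : Type}

theorem IsMono.mul [Fintype κ] {B : Matrix μ κ ℂ} {A : Matrix κ ι ℂ} (hB : IsMono B)
    (hA : IsMono A) : IsMono (B * A) := by
  intro j
  obtain ⟨i, hi⟩ := hB j
  obtain ⟨l, hl⟩ := hA i
  refine ⟨l, fun l' hl' => ?_⟩
  rw [Matrix.mul_apply]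
  refine Finset.sum_eq_zero fun i' _ => ?_
  by_cases h : i' = i
  · rw [h, hl l' hl', mul_zero]
  · rw [hi i' h, zero_mul]

theorem isMono_diagonal [DecidableEq ι] (d : ι → ℂ) : IsMono (Matrix.diagonal d) :=
  fun j => ⟨j, fun _ h => Matrix.diagonal_apply_ne _ h.symm⟩

theorem isMono_one [DecidableEq ι] : IsMono (1 : Matrix ι ι ℂ) :=
  fun j => ⟨j, fun _ h => Matrix.one_apply_ne h.symm⟩

theorem IsMono.submatrix {ι' κ' : Type} {A : Matrix κ ι ℂ} (h : IsMono A) (f : κ' → κ)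
    (g : ι' ≃ ι) : IsMono (A.submatrix f g) := by
  intro j
  obtain ⟨i, hi⟩ := h (f j)
  refine ⟨g.symm i, fun i' hi' => hi _ fun h => hi' ?_⟩
  rw [← h, Equiv.symm_apply_apply]

theorem IsMono.smul {A : Matrix κ ι ℂ} (h : IsMono A) (c : ℂ) : IsMono (c • A) := by
  intro j
  obtain ⟨i, hi⟩ := h j
  exact ⟨i, fun i' hi' => by simp [hi i' hi']⟩

end mono

section batch
variable {ι κ B W : Type} [Fintype ι] [Fintype κ] [Fintype B] [DecidableEq B] [Fintype W]
  [DecidableEq W]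

theorem cost_one_kron (A : Matrix κ ι ℂ) :
    cost ((1 : Matrix B B ℂ) ⊗ₖ A) ≤ Fintype.card B * cost A := by
  refine Cost.cost_le fun V _ _ v => ?_
  have := Reach.iUnion (T := Set.range v) (r := fun _ => cost A)
    (S := fun b : B => Set.range (app A fun i => v (b, i))) (fun b =>
      (cost_spec A V _).mono_left' (by
        rintro _ ⟨i, rfl⟩
        exact mem_range_self _))
  simp only [Finset.sum_const, Finset.card_univ, smul_eq_mul] at this
  refine this.mono_right' ?_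
  rintro _ ⟨⟨b, j⟩, rfl⟩
  refine Set.mem_iUnion.mpr ⟨b, j, ?_⟩
  simp [app, Fintype.sum_prod_type, Matrix.one_apply, ite_smul]

theorem cost_kron_one (A : Matrix κ ι ℂ) :
    cost (A ⊗ₖ (1 : Matrix B B ℂ)) ≤ cost ((1 : Matrix B B ℂ) ⊗ₖ A) := by
  have : A ⊗ₖ (1 : Matrix B B ℂ) =
      ((1 : Matrix B B ℂ) ⊗ₖ A).submatrix Prod.swap Prod.swap := by
    ext ⟨a, b⟩ ⟨c, d⟩
    simp [mul_comm]
  rw [this]
  exact cost_submatrix_le _ _ _ Prod.swap_injective

theorem cost_batch (A : Matrix κ ι ℂ) (q : ℕ) (h : Fintype.card B ≤ q * Fintype.card W) :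
    cost ((1 : Matrix B B ℂ) ⊗ₖ A) ≤ q * cost ((1 : Matrix W W ℂ) ⊗ₖ A) := by
  obtain ⟨e⟩ : Nonempty (B ↪ Fin q × W) :=
    Function.Embedding.nonempty_of_card_le (by simpa using h)
  have : (1 : Matrix B B ℂ) ⊗ₖ A =
      ((1 : Matrix (Fin q) (Fin q) ℂ) ⊗ₖ ((1 : Matrix W W ℂ) ⊗ₖ A)).submatrix
        (fun p => ((e p.1).1, (e p.1).2, p.2)) (fun p => ((e p.1).1, (e p.1).2, p.2)) := by
    ext ⟨a, b⟩ ⟨c, d⟩
    simp only [Matrix.kroneckerMap_apply, Matrix.submatrix_apply, Matrix.one_apply]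
    by_cases hac : a = c
    · subst hac; simp
    · have : ¬ ((e a).1 = (e c).1 ∧ (e a).2 = (e c).2) := fun h =>
        hac (e.injective (Prod.ext h.1 h.2))
      rw [if_neg hac]
      by_cases h1 : (e a).1 = (e c).1
      · have h2 : (e a).2 ≠ (e c).2 := fun h2 => this ⟨h1, h2⟩
        simp [h2]
      · simp [h1]
  rw [this]
  refine (cost_submatrix_le _ _ _ ?_).trans ?_
  · rintro ⟨a, b⟩ ⟨c, d⟩ h
    simp only [Prod.mk.injEq] at h
    exact Prod.ext (e.injective (Prod.ext h.1 h.2.1)) h.2.2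
  · simpa using cost_one_kron (B := Fin q) ((1 : Matrix W W ℂ) ⊗ₖ A)

theorem cost_le_batch [Nonempty W] (A : Matrix κ ι ℂ) :
    cost A ≤ cost ((1 : Matrix W W ℂ) ⊗ₖ A) := by
  obtain ⟨w⟩ := ‹Nonempty W›
  have : A = ((1 : Matrix W W ℂ) ⊗ₖ A).submatrix (fun p => (w, p)) (fun p => (w, p)) := by
    ext a b
    simp
  conv_lhs => rw [this]
  exact cost_submatrix_le _ _ _ (fun a b h => (Prod.mk.inj h).2)

end batch

end Vale.Agent.P344
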