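import Vale.Agent.P344.Net

/-!
Quadratic phases attached to three-element subsets.
-/

namespace Vale.Agent.P344

open Finset

variable {h : ℕ}

/-- Sum of the coordinates in `S`. -/
def ell (S : Finset (Fin h)) : (Fin h → ZMod 4) →+ ZMod 4 where
  toFun y := ∑ i ∈ S, y i
  map_zero' := by simp
  map_add' x y := by simp [Finset.sum_add_distrib]

theorem ell_apply (S : Finset (Fin h)) (y : Fin h → ZMod 4) : ell S y = ∑ i ∈ S, y i := rfl

/-- Sum of the squares of the coordinates. -/
def nrm {J : Type} [Fintype J] (y : J → ZMod 4) : ZMod 4 := ∑ i, y i ^ 2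

theorem four_eq_zero : (4 : ZMod 4) = 0 := by decide

theorem two_mul_sq_sum {J : Type} (s : Finset J) (y : J → ZMod 4) :
    2 * (∑ i ∈ s, y i) ^ 2 = 2 * ∑ i ∈ s, y i ^ 2 := by
  classical
  induction s using Finset.induction_on with
  | empty => simp
  | insert a s ha ih =>
    rw [Finset.sum_insert ha, Finset.sum_insert ha]
    linear_combination ih + (y a * ∑ i ∈ s, y i) * four_eq_zero

theorem four_identity (Q : Finset (Fin h)) (hQ : Q.card = 4) (y : Fin h → ZMod 4) :
    ∑ i ∈ Q, y i ^ 2 + ∑ i ∈ Q, ell (Q.erase i) y ^ 2 = 0 := by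
  have h1 : ∀ i ∈ Q, ell (Q.erase i) y ^ 2 =
      (∑ j ∈ Q, y j) ^ 2 - 2 * (∑ j ∈ Q, y j) * y i + y i ^ 2 := by
    intro i hi
    rw [ell_apply, ← Finset.add_sum_erase Q y hi]
    ring
  rw [Finset.sum_congr rfl h1, Finset.sum_add_distrib, Finset.sum_sub_distrib,
    ← Finset.mul_sum, Finset.sum_const, hQ]
  have h2 := two_mul_sq_sum Q y
  simp only [nsmul_eq_mul, Nat.cast_ofNat]
  linear_combination (-1) * h2 + ((∑ j ∈ Q, y j) ^ 2) * four_eq_zero

theorem short_quad (Q D : Finset (Fin h)) (hQ : Q.card = 4) (hD : D ⊆ Q) :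
    Short (4 - D.card) fun y : Fin h → ZMod 4 =>
      ∑ i ∈ Q, y i ^ 2 + ∑ i ∈ D, ell (Q.erase i) y ^ 2 := by
  have h1 := (Short.sum (Q \ D) (q := fun i y => ell (Q.erase i) y ^ 2)
    (fun i _ => Short.one _)).neg
  rw [Finset.card_sdiff_of_subset hD, hQ, mul_one] at h1
  refine h1.congr fun y => ?_
  have h2 := four_identity Q hQ y
  rw [← Finset.sum_sdiff hD (f := fun i => ell (Q.erase i) y ^ 2)] at h2
  simp only [Pi.neg_apply]
  linear_combination h2

theorem short_coords {J : Type} (A : Finset J) :
    Short A.card fun y : J → ZMod 4 => ∑ i ∈ A, y i ^ 2 := by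
  simpa using Short.sum A (q := fun i (y : J → ZMod 4) => y i ^ 2)
    (fun i _ => Short.one (Pi.evalAddMonoidHom (fun _ => ZMod 4) i))

theorem short_nrm : Short h fun y : Fin h → ZMod 4 => nrm y := by
  simpa [nrm] using short_coords (Finset.univ : Finset (Fin h))

theorem exists_notMem_of_card_lt (A : Finset (Fin h)) (hA : A.card < h) : ∃ d, d ∉ A := by
  by_contra hc
  push Not at hc
  have : A = Finset.univ := Finset.eq_univ_of_forall hc
  rw [this, Finset.card_univ, Fintype.card_fin] at hA
  exact lt_irrefl _ hA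

theorem short_line (hh : 8 ≤ h) (S : Finset (Fin h)) (hS : S.card = 3) :
    Short (h - 1) fun y : Fin h → ZMod 4 => nrm y + ell S y ^ 2 := by
  obtain ⟨d, hd⟩ := exists_notMem_of_card_lt S (by omega)
  have hQ : (insert d S).card = 4 := by rw [Finset.card_insert_of_notMem hd, hS]
  have h1 := (short_coords (insert d S)ᶜ).add
    (short_quad (insert d S) {d} hQ (by simp))
  rw [Finset.card_compl, hQ, Fintype.card_fin, Finset.card_singleton] at h1
  refine (h1.mono (by omega)).congr fun y => ?_
  simp only [Pi.add_apply, Finset.sum_singleton, Finset.erase_insert hd, nrm]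
  rw [← Finset.sum_compl_add_sum (insert d S), add_assoc]

theorem short_pair (hh : 8 ≤ h) (S T : Finset (Fin h)) (hS : S.card = 3) (hT : T.card = 3)
    (hST : (S ∩ T).card = 0 ∨ (S ∩ T).card = 2) :
    Short (h - 2) fun y : Fin h → ZMod 4 => nrm y + ell S y ^ 2 + ell T y ^ 2 := by
  have hU := Finset.card_union_add_card_inter S T
  rcases hST with hST | hST
  · obtain ⟨c, hc⟩ := exists_notMem_of_card_lt (S ∪ T) (by omega)
    have hc' : (insert c (S ∪ T)).card < h := by
      rw [Finset.card_insert_of_notMem hc]; omega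
    obtain ⟨d, hd⟩ := exists_notMem_of_card_lt _ hc'
    simp only [Finset.mem_insert, Finset.mem_union, not_or] at hc hd
    have hdisj : Disjoint S T := Finset.disjoint_iff_inter_eq_empty.mpr (Finset.card_eq_zero.mp hST)
    have hQ1 : (insert c S).card = 4 := by rw [Finset.card_insert_of_notMem hc.1, hS]
    have hQ2 : (insert d T).card = 4 := by rw [Finset.card_insert_of_notMem hd.2.2, hT]
    have hdisj2 : Disjoint (insert c S) (insert d T) := by
      rw [Finset.disjoint_insert_left, Finset.disjoint_insert_right]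
      refine ⟨?_, hd.2.1, hdisj⟩
      simp only [Finset.mem_insert, not_or]
      exact ⟨fun h => hd.1 h.symm, hc.2⟩
    have h1 := ((short_coords (insert c S ∪ insert d T)ᶜ).add
      (short_quad (insert c S) {c} hQ1 (by simp))).add (short_quad (insert d T) {d} hQ2 (by simp))
    rw [Finset.card_compl, Finset.card_union_of_disjoint hdisj2, hQ1, hQ2, Fintype.card_fin,
      Finset.card_singleton, Finset.card_singleton] at h1
    refine (h1.mono (by omega)).congr fun y => ?_
    simp only [Pi.add_apply, Finset.sum_singleton, Finset.erase_insert hc.1,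
      Finset.erase_insert hd.2.2, nrm]
    rw [← Finset.sum_compl_add_sum (insert c S ∪ insert d T), Finset.sum_union hdisj2]
    ring
  · have hQ : (S ∪ T).card = 4 := by omega
    have h1 : (S \ T).card = 1 := by
      have := Finset.card_sdiff_add_card_inter S T
      omega
    have h2 : (T \ S).card = 1 := by
      have := Finset.card_sdiff_add_card_inter T S
      rw [Finset.inter_comm] at this
      omega
    obtain ⟨c, hc⟩ := Finset.card_eq_one.mp h1
    obtain ⟨d, hd⟩ := Finset.card_eq_one.mp h2
    have hc' : ∀ i, (i ∈ S ∧ i ∉ T) ↔ i = c := fun i => by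
      rw [← Finset.mem_sdiff, hc, Finset.mem_singleton]
    have hd' : ∀ i, (i ∈ T ∧ i ∉ S) ↔ i = d := fun i => by
      rw [← Finset.mem_sdiff, hd, Finset.mem_singleton]
    have hcd : c ≠ d := fun h => ((hd' d).mpr rfl).2 (h ▸ ((hc' c).mpr rfl).1)
    have e1 : (S ∪ T).erase c = T := by
      ext i
      simp only [Finset.mem_erase, Finset.mem_union, ne_eq, ← hc' i]
      tauto
    have e2 : (S ∪ T).erase d = S := by
      ext i
      simp only [Finset.mem_erase, Finset.mem_union, ne_eq, ← hd' i]
      tauto
    have hD : ({c, d} : Finset (Fin h)) ⊆ S ∪ T := by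
      intro i hi
      simp only [Finset.mem_insert, Finset.mem_singleton] at hi
      rcases hi with rfl | rfl
      · exact Finset.mem_union_left _ ((hc' i).mpr rfl).1
      · exact Finset.mem_union_right _ ((hd' i).mpr rfl).1
    have h3 := (short_coords (S ∪ T)ᶜ).add (short_quad (S ∪ T) {c, d} hQ hD)
    rw [Finset.card_compl, hQ, Fintype.card_fin, Finset.card_pair hcd] at h3
    refine (h3.mono (by omega)).congr fun y => ?_
    simp only [Pi.add_apply, Finset.sum_pair hcd, e1, e2, nrm]
    rw [← Finset.sum_compl_add_sum (S ∪ T)]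
    ring

/-- Contract the second index with the indicator of `t`. -/
def row (t : Finset (Fin h)) : (Fin h × Fin h → ZMod 4) →+ (Fin h → ZMod 4) where
  toFun x := fun i => ∑ j ∈ t, x (i, j)
  map_zero' := by funext i; simp
  map_add' x y := by funext i; simp [Finset.sum_add_distrib]

/-- Contract the first index with the indicator of `t`. -/
def col (t : Finset (Fin h)) : (Fin h × Fin h → ZMod 4) →+ (Fin h → ZMod 4) where
  toFun x := fun j => ∑ i ∈ t, x (i, j)
  map_zero' := by funext i; simp
  map_add' x y := by funext i; simp [Finset.sum_add_distrib]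

theorem row_apply (t : Finset (Fin h)) (x : Fin h × Fin h → ZMod 4) (i : Fin h) :
    row t x i = ∑ j ∈ t, x (i, j) := rfl

theorem col_apply (t : Finset (Fin h)) (x : Fin h × Fin h → ZMod 4) (j : Fin h) :
    col t x j = ∑ i ∈ t, x (i, j) := rfl

theorem ell_row (s t : Finset (Fin h)) (x : Fin h × Fin h → ZMod 4) :
    ell s (row t x) = ell t (col s x) := by
  simp only [ell_apply, row_apply, col_apply]
  exact Finset.sum_comm

/-- The `i`-th row. -/
def rowAt (i : Fin h) : (Fin h × Fin h → ZMod 4) →+ (Fin h → ZMod 4) where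
  toFun x := fun j => x (i, j)
  map_zero' := rfl
  map_add' _ _ := rfl

/-- The `j`-th column. -/
def colAt (j : Fin h) : (Fin h × Fin h → ZMod 4) →+ (Fin h → ZMod 4) where
  toFun x := fun i => x (i, j)
  map_zero' := rfl
  map_add' _ _ := rfl

theorem short_row (hh : 8 ≤ h) (t : Finset (Fin h)) (ht : t.card = 3) :
    Short (h * (h - 1)) fun x : Fin h × Fin h → ZMod 4 => nrm x + nrm (row t x) := by
  have := Short.sum Finset.univ (fun (i : Fin h) _ => (short_line hh t ht).comp (rowAt i))
  rw [Finset.card_univ, Fintype.card_fin] at this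
  refine this.congr fun x => ?_
  rw [Finset.sum_add_distrib, nrm, Fintype.sum_prod_type]
  rfl

theorem short_col (hh : 8 ≤ h) (t : Finset (Fin h)) (ht : t.card = 3) :
    Short (h * (h - 1)) fun x : Fin h × Fin h → ZMod 4 => nrm x + nrm (col t x) := by
  have := Short.sum Finset.univ (fun (j : Fin h) _ => (short_line hh t ht).comp (colAt j))
  rw [Finset.card_univ, Fintype.card_fin] at this
  refine this.congr fun x => ?_
  rw [Finset.sum_add_distrib, nrm, Fintype.sum_prod_type_right]
  rfl

theorem row_eq_sum (t : Finset (Fin h)) (x : Fin h × Fin h → ZMod 4) :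
    row t x = ∑ j ∈ t, colAt j x := by
  funext i
  rw [row_apply, Finset.sum_apply]
  rfl

theorem short_tensor (hh : 8 ≤ h) (t : Finset (Fin h)) (ht : t.card = 3) {r : ℕ}
    {q : (Fin h → ZMod 4) → ZMod 4} (hq : Short r q) :
    Short (r * (h - 1)) fun x : Fin h × Fin h → ZMod 4 => ∑ j, q (colAt j x) + q (row t x) := by
  induction hq with
  | zero r => exact (Short.zero _).congr (by simp)
  | sq f _ ih =>
    have h1 := (short_line hh t ht).comp
      (AddMonoidHom.pi (fun j : Fin h => f.comp (colAt j)))
    refine ((ih.add h1).mono (le_of_eq (by ring))).congr fun x => ?_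
    simp only [Pi.add_apply, Finset.sum_add_distrib, nrm, ell_apply, AddMonoidHom.pi_apply,
      AddMonoidHom.comp_apply]
    rw [show f (row t x) = ∑ j ∈ t, f (colAt j x) by rw [row_eq_sum, map_sum]]
    ring
  | dbl f _ ih =>
    have h1 := (Short.sum Finset.univ (fun (j : Fin h) _ => Short.two (f.comp (colAt j)))).add
      (Short.two (f.comp (row t)))
    refine ((ih.add h1).mono (le_of_eq (by ring))).congr fun x => ?_
    simp only [Pi.add_apply, Finset.sum_add_distrib, AddMonoidHom.comp_apply]
    ring

theorem short_both (hh : 8 ≤ h) (s t : Finset (Fin h)) (hs : s.card = 3) (ht : t.card = 3) :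
    Short ((h - 1) * (h - 1)) fun x : Fin h × Fin h → ZMod 4 =>
      nrm x + nrm (col s x) + nrm (row t x) + ell s (row t x) ^ 2 := by
  refine (short_tensor hh t ht (short_line hh s hs)).congr fun x => ?_
  rw [Finset.sum_add_distrib, nrm, Fintype.sum_prod_type_right, add_assoc]
  rfl

end Vale.Agent.P344
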